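import Vale.Agent.P028.MathlibUsed
import Vale.Agent.P028.MSP

/-!
# The cross-cell single prime inequality (helper448 X1)

Either the exact decomposition into the cells `(i,j)` or, for some `k`, the decomposition into the
cross `{i = k or j = k}` (kept whole) and the remaining exact cells costs at most a factor
`1 + C p^(-1-c)`; the kernel is `p^(-(1-κ)(1-θ)|i-j|)` with a fixed power slack `κ`, and no
discount `1 - x_p` is used.
-/

namespace Vale.P028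

open Finset

/-- Cross-cell single prime inequality. -/
def SPXe (θ b c : ℝ) : Prop :=
  ∀ (N : ℕ) (φ χ : ℕ → ℝ), (∀ i, 0 ≤ φ i) → (∀ i, 0 ≤ χ i) →
    (∑ i ∈ range (N + 1), ∑ j ∈ range (N + 1), b ^ ad i j * (φ i * χ j) ^ θ
      ≤ c * ((∑ i ∈ range (N + 1), φ i) * ∑ j ∈ range (N + 1), χ j) ^ θ) ∨
    ∃ k ≤ N, ((∑ i ∈ range (N + 1), φ i) * ∑ j ∈ range (N + 1), χ j) ^ θ
      + ∑ i ∈ (range (N + 1)).erase k, ∑ j ∈ (range (N + 1)).erase k, b ^ ad i j * (φ i * χ j) ^ θ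
      ≤ c * ((∑ i ∈ range (N + 1), φ i) * ∑ j ∈ range (N + 1), χ j) ^ θ

/-- off-diagonal bilinear bound -/
theorem bilin_off {θ b : ℝ} (hθ : 1 / 2 ≤ θ) (hb : 0 ≤ b) (hb1 : b < 1) (I J : Finset ℕ)
    (φ χ : ℕ → ℝ) (hφ : ∀ i, 0 ≤ φ i) (hχ : ∀ i, 0 ≤ χ i) :
    ∑ i ∈ I, ∑ j ∈ J, (if i ≠ j then b ^ ad i j * (φ i * χ j) ^ θ else 0) ≤
      2 * (b / (1 - b)) * ((∑ i ∈ I, φ i) * ∑ j ∈ J, χ j) ^ θ := by
  have hθ0 : θ ≠ 0 := by linarith
  have hK : 0 ≤ 2 * (b / (1 - b)) := by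
    have : 0 ≤ b / (1 - b) := div_nonneg hb (by linarith only [hb1])
    linarith
  rcases (Finset.sum_nonneg fun i (_ : i ∈ I) => hφ i).eq_or_lt with h | h
  · have h0 : ∀ i ∈ I, φ i = 0 := (Finset.sum_eq_zero_iff_of_nonneg (fun i _ => hφ i)).1 h.symm
    rw [← h, zero_mul, Real.zero_rpow hθ0, mul_zero]
    refine le_of_eq (Finset.sum_eq_zero fun i hi => Finset.sum_eq_zero fun j _ => ?_)
    rw [h0 i hi, zero_mul, Real.zero_rpow hθ0, mul_zero, ite_self]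
  rcases (Finset.sum_nonneg fun i (_ : i ∈ J) => hχ i).eq_or_lt with h' | h'
  · have h0 : ∀ i ∈ J, χ i = 0 := (Finset.sum_eq_zero_iff_of_nonneg (fun i _ => hχ i)).1 h'.symm
    rw [← h', mul_zero, Real.zero_rpow hθ0, mul_zero]
    refine le_of_eq (Finset.sum_eq_zero fun i _ => Finset.sum_eq_zero fun j hj => ?_)
    rw [h0 j hj, mul_zero, Real.zero_rpow hθ0, mul_zero, ite_self]
  set Φ := ∑ i ∈ I, φ i with hΦ
  set X := ∑ j ∈ J, χ j with hX
  have hrow : ∀ (i : ℕ) (J : Finset ℕ), ∑ j ∈ J, (if i ≠ j then b ^ ad i j else 0) ≤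
      2 * (b / (1 - b)) := by
    intro i J
    rw [← Finset.sum_filter]
    exact sum_ad_off hb hb1 i _ fun j hj => ((Finset.mem_filter.1 hj).2).symm
  have hmain := bilin_norm hθ hb I J (fun i j => i ≠ j) (fun i => φ i / Φ) (fun j => χ j / X)
    (fun i => div_nonneg (hφ i) h.le) (fun j => div_nonneg (hχ j) h'.le)
    (by rw [← Finset.sum_div, div_self h.ne']) (by rw [← Finset.sum_div, div_self h'.ne'])
    (K := 2 * (b / (1 - b))) (fun i _ => hrow i J)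
    (by
      intro j _
      have := hrow j I
      simpa only [ad_comm' j, ne_comm (a := j)] using this) hK
  have hpos : 0 < Φ * X := mul_pos h h'
  have hscale : ∀ i j, (if i ≠ j then b ^ ad i j * (φ i * χ j) ^ θ else 0)
      = (Φ * X) ^ θ * (if i ≠ j then b ^ ad i j * (φ i / Φ * (χ j / X)) ^ θ else 0) := by
    intro i j
    split_ifs
    · have e : φ i * χ j = (Φ * X) * (φ i / Φ * (χ j / X)) := by
        (clear * - h h'; field_simp)
      rw [e, Real.mul_rpow hpos.le (mul_nonneg (div_nonneg (hφ i) h.le) (div_nonneg (hχ j) h'.le))]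
      have e2 : Φ * X * (φ i / Φ * (χ j / X)) / (Φ * X) = φ i / Φ * (χ j / X) := by
        (clear * - h' h; field_simp)
      ring
    · ring
  calc ∑ i ∈ I, ∑ j ∈ J, (if i ≠ j then b ^ ad i j * (φ i * χ j) ^ θ else 0)
      = ∑ i ∈ I, ∑ j ∈ J, (Φ * X) ^ θ *
          (if i ≠ j then b ^ ad i j * (φ i / Φ * (χ j / X)) ^ θ else 0) := by
        refine Finset.sum_congr rfl fun i _ => Finset.sum_congr rfl fun j _ => hscale i j
    _ = (Φ * X) ^ θ * ∑ i ∈ I, ∑ j ∈ J,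
          (if i ≠ j then b ^ ad i j * (φ i / Φ * (χ j / X)) ^ θ else 0) := by
        simp only [Finset.mul_sum]
    _ ≤ (Φ * X) ^ θ * (2 * (b / (1 - b))) :=
        mul_le_mul_of_nonneg_left hmain (Real.rpow_nonneg hpos.le _)
    _ = _ := mul_comm _ _

/-- diagonal sum: bounded by the maximal term -/
theorem diag_le {θ : ℝ} (hθ : 1 / 2 < θ) (I : Finset ℕ)
    (φ χ : ℕ → ℝ) (hφ : ∀ i, 0 ≤ φ i) (hχ : ∀ i, 0 ≤ χ i)
    (hφ1 : ∑ i ∈ I, φ i = 1) (hχ1 : ∑ i ∈ I, χ i = 1) {M : ℝ} (hM : ∀ i ∈ I, φ i * χ i ≤ M) :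
    ∑ i ∈ I, (φ i * χ i) ^ θ ≤ M ^ (θ - 1 / 2) := by
  have hne : I.Nonempty := by
    rcases I.eq_empty_or_nonempty with rfl | h
    · simp at hφ1
    · exact h
  have hM0 : 0 ≤ M := by
    obtain ⟨i, hi⟩ := hne
    exact (mul_nonneg (hφ i) (hχ i)).trans (hM i hi)
  have h1 : ∀ i ∈ I, (φ i * χ i) ^ θ ≤ M ^ (θ - 1 / 2) * ((φ i + χ i) / 2) := by
    intro i hi
    have hx : 0 ≤ φ i * χ i := mul_nonneg (hφ i) (hχ i)
    have e1 : (φ i * χ i) ^ θ = (φ i * χ i) ^ (θ - 1 / 2) * (φ i * χ i) ^ (1 / 2 : ℝ) := by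
      rw [← Real.rpow_add_of_nonneg hx (by linarith) (by norm_num)]
      congr 1; ring
    rw [e1]
    refine mul_le_mul (Real.rpow_le_rpow hx (hM i hi) (by linarith)) ?_ (Real.rpow_nonneg hx _)
      (Real.rpow_nonneg hM0 _)
    rw [← Real.sqrt_eq_rpow]
    refine Real.sqrt_le_iff.2 ⟨by have := hφ i; have := hχ i; positivity, ?_⟩
    nlinarith only [sq_nonneg (φ i - χ i)]
  calc ∑ i ∈ I, (φ i * χ i) ^ θ ≤ ∑ i ∈ I, M ^ (θ - 1 / 2) * ((φ i + χ i) / 2) :=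
        Finset.sum_le_sum h1
    _ = M ^ (θ - 1 / 2) * ((∑ i ∈ I, φ i + ∑ i ∈ I, χ i) / 2) := by
        rw [← Finset.mul_sum, ← Finset.sum_div, Finset.sum_add_distrib]
    _ = M ^ (θ - 1 / 2) := by rw [hφ1, hχ1]; ring

/-- normalised version: with `t` the threshold for `(η η')^θ`. -/
theorem SPX_norm {θ b t : ℝ} (hθ : 1 / 2 < θ) (hθ1 : θ < 1) (hb : 0 ≤ b) (hb2 : b ≤ 1 / 2)
    (hbt : ∀ η : ℝ, 0 ≤ η → η ≤ 1 → t < η ^ (2 * θ) → 12 * b * η ^ θ ≤ (θ - 1 / 2) * η)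
    (N : ℕ) (φ χ : ℕ → ℝ) (hφ : ∀ i, 0 ≤ φ i) (hχ : ∀ i, 0 ≤ χ i)
    (hφ1 : ∑ i ∈ range (N + 1), φ i = 1) (hχ1 : ∑ i ∈ range (N + 1), χ i = 1) :
    (∑ i ∈ range (N + 1), ∑ j ∈ range (N + 1), b ^ ad i j * (φ i * χ j) ^ θ ≤ 1) ∨
    ∃ k ≤ N, (1 : ℝ) + ∑ i ∈ (range (N + 1)).erase k, ∑ j ∈ (range (N + 1)).erase k,
      b ^ ad i j * (φ i * χ j) ^ θ ≤ 1 + 3 * t := by
  have hb1 : b < 1 := by linarith
  obtain ⟨k, hk, hkmax⟩ := Finset.exists_max_image (range (N + 1)) (fun i => φ i * χ i)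
    ⟨0, by simp⟩
  have hkN : k ≤ N := by
    have := Finset.mem_range.1 hk
    omega
  set r := range (N + 1) with hr
  set η := ∑ i ∈ r.erase k, φ i with hη
  set η' := ∑ i ∈ r.erase k, χ i with hη'
  have hη0 : 0 ≤ η := Finset.sum_nonneg fun i _ => hφ i
  have hη'0 : 0 ≤ η' := Finset.sum_nonneg fun i _ => hχ i
  have e1 : φ k + η = 1 := by rw [hη, Finset.add_sum_erase r _ hk, hφ1]
  have e2 : χ k + η' = 1 := by rw [hη', Finset.add_sum_erase r _ hk, hχ1]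
  have hη1 : η ≤ 1 := by have := hφ k; linarith
  have hη'1 : η' ≤ 1 := by have := hχ k; linarith
  by_cases hc : (η * η') ^ θ ≤ t
  · right
    refine ⟨k, hkN, ?_⟩
    have h1 := bilin_all hθ.le hb hb1 (r.erase k) (r.erase k) φ χ hφ hχ
    have h2 : (1 + b) / (1 - b) ≤ 3 := by
      rw [div_le_iff₀ (by linarith)]
      linarith
    have h3 : 0 ≤ (η * η') ^ θ := Real.rpow_nonneg (mul_nonneg hη0 hη'0) _
    have h4 : (1 + b) / (1 - b) * (η * η') ^ θ ≤ 3 * t :=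
      mul_le_mul h2 hc h3 (by norm_num)
    linarith
  · left
    rw [not_le] at hc
    -- wlog the maximum of η, η'
    set m := max η η' with hm
    have hm0 : 0 ≤ m := hη0.trans (le_max_left _ _)
    have hm1 : m ≤ 1 := max_le hη1 hη'1
    have hmt : t < m ^ (2 * θ) := by
      refine hc.trans_le ?_
      have : η * η' ≤ m ^ 2 := by
        rw [sq]
        exact mul_le_mul (le_max_left _ _) (le_max_right _ _) hη'0 hm0
      calc (η * η') ^ θ ≤ (m ^ 2) ^ θ :=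
            Real.rpow_le_rpow (mul_nonneg hη0 hη'0) this (by linarith)
        _ = m ^ (2 * θ) := by
            rw [← Real.rpow_natCast, ← Real.rpow_mul hm0]
            norm_num
    have hkey := hbt m hm0 hm1 hmt
    -- diagonal part
    have hM : ∀ i ∈ r, φ i * χ i ≤ 1 - m := by
      intro i hi
      refine (hkmax i hi).trans ?_
      rcases max_choice η η' with h | h
      · rw [hm, h]
        have h1 : φ k = 1 - η := by linarith
        rw [h1]
        have h2 : χ k ≤ 1 := by linarith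
        have h3 : 0 ≤ 1 - η := by linarith
        nlinarith
      · rw [hm, h]
        have h1 : χ k = 1 - η' := by linarith
        rw [h1]
        have h2 : φ k ≤ 1 := by linarith
        have h3 : 0 ≤ 1 - η' := by linarith
        nlinarith
    have hdiag : ∑ i ∈ r, (φ i * χ i) ^ θ ≤ 1 - (θ - 1 / 2) * m :=
      (diag_le hθ r φ χ hφ hχ hφ1 hχ1 hM).trans (bern (by linarith) (by linarith) hm1)
    -- off-diagonal part
    have hsplit : ∑ i ∈ r, ∑ j ∈ r, b ^ ad i j * (φ i * χ j) ^ θ =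
        ∑ i ∈ r, (φ i * χ i) ^ θ +
          ∑ i ∈ r, ∑ j ∈ r, (if i ≠ j then b ^ ad i j * (φ i * χ j) ^ θ else 0) := by
      rw [← Finset.sum_add_distrib]
      refine Finset.sum_congr rfl fun i hi => ?_
      rw [← Finset.add_sum_erase r _ hi, ← Finset.add_sum_erase r
        (fun j => if i ≠ j then b ^ ad i j * (φ i * χ j) ^ θ else 0) hi, ad_self', pow_zero, one_mul,
        if_neg (not_not.2 rfl), zero_add]
      congr 1
      refine Finset.sum_congr rfl fun j hj => ?_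
      rw [if_pos (Finset.ne_of_mem_erase hj).symm]
    have hcr := split_cross hk (fun i j => if i ≠ j then b ^ ad i j * (φ i * χ j) ^ θ else 0)
    have o1 := bilin_off hθ.le hb hb1 {k} (r.erase k) φ χ hφ hχ
    have o2 := bilin_off hθ.le hb hb1 (r.erase k) {k} φ χ hφ hχ
    have o3 := bilin_off hθ.le hb hb1 (r.erase k) (r.erase k) φ χ hφ hχ
    simp only [Finset.sum_singleton] at o1 o2
    rw [← hη'] at o1
    rw [← hη] at o2
    rw [← hη, ← hη'] at o3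
    have hmθ : ∀ x y : ℝ, 0 ≤ x → 0 ≤ y → x ≤ 1 → y ≤ m → (x * y) ^ θ ≤ m ^ θ := by
      intro x y hx hy hx1 hym
      refine Real.rpow_le_rpow (mul_nonneg hx hy) ?_ (by linarith)
      calc x * y ≤ 1 * m := mul_le_mul hx1 hym hy (by norm_num)
        _ = m := one_mul _
    have hφk1 : φ k ≤ 1 := by linarith
    have hχk1 : χ k ≤ 1 := by linarith
    have q1 := hmθ (φ k) η' (hφ k) hη'0 hφk1 (le_max_right _ _)
    have q2 := hmθ (χ k) η (hχ k) hη0 hχk1 (le_max_left _ _)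
    have q3 := hmθ η η' hη0 hη'0 hη1 (le_max_right _ _)
    have hbb : 2 * (b / (1 - b)) ≤ 4 * b := by
      have : b / (1 - b) ≤ 2 * b := by
        rw [div_le_iff₀ (by linarith)]
        nlinarith
      linarith
    have hbb0 : 0 ≤ 2 * (b / (1 - b)) := by
      have : 0 ≤ b / (1 - b) := div_nonneg hb (by linarith)
      linarith
    have hmp : 0 ≤ m ^ θ := Real.rpow_nonneg hm0 _
    have p1 : 2 * (b / (1 - b)) * (φ k * η') ^ θ ≤ 4 * b * m ^ θ :=
      mul_le_mul hbb q1 (Real.rpow_nonneg (mul_nonneg (hφ k) hη'0) _) (by linarith)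
    have p2 : 2 * (b / (1 - b)) * (η * χ k) ^ θ ≤ 4 * b * m ^ θ := by
      rw [mul_comm η]
      exact mul_le_mul hbb q2 (Real.rpow_nonneg (mul_nonneg (hχ k) hη0) _) (by linarith)
    have p3 : 2 * (b / (1 - b)) * (η * η') ^ θ ≤ 4 * b * m ^ θ :=
      mul_le_mul hbb q3 (Real.rpow_nonneg (mul_nonneg hη0 hη'0) _) (by linarith)
    have hkk : (if k ≠ k then b ^ ad k k * (φ k * χ k) ^ θ else 0) = 0 := if_neg (not_not.2 rfl)
    rw [hsplit, hcr, hkk]
    linarith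

/-- scaling: from the normalised version to all sequences -/
theorem SPX_of_norm {θ b c : ℝ} (hθ : 1 / 2 < θ)
    (h : ∀ (N : ℕ) (φ χ : ℕ → ℝ), (∀ i, 0 ≤ φ i) → (∀ i, 0 ≤ χ i) →
      ∑ i ∈ range (N + 1), φ i = 1 → ∑ i ∈ range (N + 1), χ i = 1 →
      (∑ i ∈ range (N + 1), ∑ j ∈ range (N + 1), b ^ ad i j * (φ i * χ j) ^ θ ≤ c) ∨
      ∃ k ≤ N, (1 : ℝ) + ∑ i ∈ (range (N + 1)).erase k, ∑ j ∈ (range (N + 1)).erase k,
        b ^ ad i j * (φ i * χ j) ^ θ ≤ c) : SPXe θ b c := by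
  intro N φ χ hφ hχ
  have hθ0 : θ ≠ 0 := by linarith
  set Φ := ∑ i ∈ range (N + 1), φ i with hΦ
  set X := ∑ i ∈ range (N + 1), χ i with hX
  rcases (Finset.sum_nonneg fun i (_ : i ∈ range (N + 1)) => hφ i).eq_or_lt with h0 | hΦp
  · left
    have hz : ∀ i ∈ range (N + 1), φ i = 0 :=
      (Finset.sum_eq_zero_iff_of_nonneg (fun i _ => hφ i)).1 h0.symm
    rw [hΦ, ← h0, zero_mul, Real.zero_rpow hθ0, mul_zero]
    refine le_of_eq (Finset.sum_eq_zero fun i hi => Finset.sum_eq_zero fun j _ => ?_)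
    rw [hz i hi, zero_mul, Real.zero_rpow hθ0, mul_zero]
  rcases (Finset.sum_nonneg fun i (_ : i ∈ range (N + 1)) => hχ i).eq_or_lt with h0 | hXp
  · left
    have hz : ∀ i ∈ range (N + 1), χ i = 0 :=
      (Finset.sum_eq_zero_iff_of_nonneg (fun i _ => hχ i)).1 h0.symm
    rw [hX, ← h0, mul_zero, Real.zero_rpow hθ0, mul_zero]
    refine le_of_eq (Finset.sum_eq_zero fun i _ => Finset.sum_eq_zero fun j hj => ?_)
    rw [hz j hj, mul_zero, Real.zero_rpow hθ0, mul_zero]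
  rw [← hΦ] at hΦp
  rw [← hX] at hXp
  have hpos : 0 < Φ * X := mul_pos hΦp hXp
  have hR : 0 < (Φ * X) ^ θ := Real.rpow_pos_of_pos hpos _
  have hscale : ∀ i j, b ^ ad i j * (φ i * χ j) ^ θ
      = (Φ * X) ^ θ * (b ^ ad i j * (φ i / Φ * (χ j / X)) ^ θ) := by
    intro i j
    have e : φ i * χ j = (Φ * X) * (φ i / Φ * (χ j / X)) := by
      (clear * - hΦp hXp; field_simp)
    rw [e, Real.mul_rpow hpos.le (mul_nonneg (div_nonneg (hφ i) hΦp.le)
      (div_nonneg (hχ j) hXp.le))]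
    have e2 : Φ * X * (φ i / Φ * (χ j / X)) / (Φ * X) = φ i / Φ * (χ j / X) := by
      (clear * - hΦp hXp; field_simp)
    ring
  simp only [hscale]
  rcases h N (fun i => φ i / Φ) (fun j => χ j / X) (fun i => div_nonneg (hφ i) hΦp.le)
    (fun j => div_nonneg (hχ j) hXp.le) (by rw [← Finset.sum_div, div_self hΦp.ne'])
    (by rw [← Finset.sum_div, div_self hXp.ne']) with h1 | ⟨k, hk, h1⟩
  · left
    simp only [← Finset.mul_sum]
    rw [mul_comm c]
    exact mul_le_mul_of_nonneg_left h1 hR.le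
  · right
    refine ⟨k, hk, ?_⟩
    simp only [← Finset.mul_sum]
    have := mul_le_mul_of_nonneg_left h1 hR.le
    rw [mul_add, mul_one] at this
    rw [mul_comm c]
    exact this

theorem SPX_all {θ κ : ℝ} (hθ : 1 / 2 < θ) (hθ1 : θ < 1) (hκ : 0 ≤ κ)
    (hκ1 : κ < (1 - 1 / (2 * θ)) / 2) :
    ∃ C : ℝ, 0 < C ∧ ∃ c : ℝ, 0 < c ∧ ∀ p : ℕ, 2 ≤ p →
      SPXe θ ((p : ℝ) ^ (-((1 - κ) * (1 - θ)))) (1 + C * (p : ℝ) ^ (-(1 + c))) := by
  have h2θ : 1 / (2 * θ) < 1 := by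
    rw [div_lt_one (by linarith)]
    linarith
  set g := 1 - 1 / (2 * θ) with hg
  have hg0 : 0 < g := by linarith
  set c := (2 * θ - 1) / 4 with hc
  have hc0 : 0 < c := by linarith
  set δ := (1 - κ) - (1 + c) / (2 * θ) with hδ
  have hcθ : (1 + c) / (2 * θ) = 1 - g + g / 4 := by
    rw [hg, hc]
    field_simp
    ring
  have hδ0 : 0 < δ := by
    rw [hδ, hcθ]
    linarith
  have hg1 : g < 1 := by
    have : 0 < 1 / (2 * θ) := by positivity
    linarith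
  have hκ2 : κ < 1 / 2 := by linarith
  have hσ : 0 < (1 - κ) * (1 - θ) := mul_pos (by linarith) (by linarith)
  set b₂ : ℝ := (2 : ℝ) ^ (-((1 - κ) * (1 - θ))) with hb₂
  have hb₂0 : 0 < b₂ := Real.rpow_pos_of_pos (by norm_num) _
  have hb₂1 : b₂ < 1 := Real.rpow_lt_one_of_one_lt_of_neg (by norm_num) (by linarith)
  have hbp : ∀ p : ℕ, 2 ≤ p → (p : ℝ) ^ (-((1 - κ) * (1 - θ))) ≤ b₂ := fun p hp =>
    Real.rpow_le_rpow_of_nonpos (by norm_num) (by exact_mod_cast hp) (by linarith)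
  -- threshold
  have htend : Filter.Tendsto (fun x : ℝ => x ^ ((1 - θ) * δ)) Filter.atTop Filter.atTop :=
    tendsto_rpow_atTop (mul_pos (by linarith) hδ0)
  have htend2 : Filter.Tendsto (fun x : ℝ => x ^ ((1 - κ) * (1 - θ))) Filter.atTop Filter.atTop :=
    tendsto_rpow_atTop hσ
  obtain ⟨P, hP⟩ := Filter.eventually_atTop.1
    ((htend.eventually_ge_atTop (12 / (θ - 1 / 2))).and (htend2.eventually_ge_atTop 2))
  set P₀ : ℝ := max P 2 with hP₀
  have hP₀2 : 2 ≤ P₀ := le_max_right _ _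
  set C : ℝ := 3 + (1 + b₂) / (1 - b₂) * P₀ ^ (1 + c) with hC
  have hK0 : 0 ≤ (1 + b₂) / (1 - b₂) := div_nonneg (by linarith) (by linarith)
  have hC3 : 3 ≤ C := by
    have : 0 ≤ (1 + b₂) / (1 - b₂) * P₀ ^ (1 + c) :=
      mul_nonneg hK0 (Real.rpow_nonneg (by linarith) _)
    linarith
  refine ⟨C, by linarith, c, hc0, fun p hp => ?_⟩
  have hp2 : (2 : ℝ) ≤ p := by exact_mod_cast hp
  have hp0 : (0 : ℝ) < p := by linarith
  have ht0 : 0 < (p : ℝ) ^ (-(1 + c)) := Real.rpow_pos_of_pos hp0 _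
  have hC1 : 1 ≤ 1 + C * (p : ℝ) ^ (-(1 + c)) := by
    have : 0 ≤ C * (p : ℝ) ^ (-(1 + c)) := mul_nonneg (by linarith) ht0.le
    linarith
  have hb0 : 0 ≤ (p : ℝ) ^ (-((1 - κ) * (1 - θ))) := (Real.rpow_pos_of_pos hp0 _).le
  have hb1 : (p : ℝ) ^ (-((1 - κ) * (1 - θ))) < 1 := (hbp p hp).trans_lt hb₂1
  by_cases hpP : (p : ℝ) ≤ P₀
  · -- small primes
    intro N φ χ hφ hχ
    left
    refine (bilin_all hθ.le hb0 hb1 _ _ φ χ hφ hχ).trans ?_
    refine mul_le_mul_of_nonneg_right ?_ (Real.rpow_nonneg (mul_nonneg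
      (Finset.sum_nonneg fun i _ => hφ i) (Finset.sum_nonneg fun i _ => hχ i)) _)
    have h1 : (1 + (p : ℝ) ^ (-((1 - κ) * (1 - θ)))) / (1 - (p : ℝ) ^ (-((1 - κ) * (1 - θ)))) ≤
        (1 + b₂) / (1 - b₂) := by
      have := hbp p hp
      exact div_le_div₀ (by linarith) (by linarith) (by linarith) (by linarith)
    have h2 : 1 ≤ P₀ ^ (1 + c) * (p : ℝ) ^ (-(1 + c)) := by
      rw [Real.rpow_neg hp0.le, ← div_eq_mul_inv, one_le_div (Real.rpow_pos_of_pos hp0 _)]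
      exact Real.rpow_le_rpow hp0.le hpP (by linarith)
    have h3 : (1 + b₂) / (1 - b₂) ≤ (1 + b₂) / (1 - b₂) * (P₀ ^ (1 + c) * (p : ℝ) ^ (-(1 + c))) :=
      le_mul_of_one_le_right hK0 h2
    have h4 : C * (p : ℝ) ^ (-(1 + c)) = 3 * (p : ℝ) ^ (-(1 + c)) +
        (1 + b₂) / (1 - b₂) * (P₀ ^ (1 + c) * (p : ℝ) ^ (-(1 + c))) := by
      rw [hC]; ring
    linarith
  · rw [not_le] at hpP
    have hPp := hP p ((le_max_left P 2).trans hpP.le)
    have hb2 : (p : ℝ) ^ (-((1 - κ) * (1 - θ))) ≤ 1 / 2 := by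
      rw [Real.rpow_neg hp0.le, ← one_div]
      exact one_div_le_one_div_of_le (by norm_num) hPp.2
    refine SPX_of_norm hθ fun N φ χ hφ hχ h1 h2 => ?_
    have hbt : ∀ η : ℝ, 0 ≤ η → η ≤ 1 → (p : ℝ) ^ (-(1 + c)) < η ^ (2 * θ) →
        12 * (p : ℝ) ^ (-((1 - κ) * (1 - θ))) * η ^ θ ≤ (θ - 1 / 2) * η := by
      intro η hη0 _ hη
      have hηp : 0 < η := by
        rcases hη0.eq_or_lt with h | h
        · rw [← h, Real.zero_rpow (by linarith)] at hη
          linarith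
        · exact h
      have e1 : (p : ℝ) ^ (-((1 + c) / (2 * θ))) < η := by
        have := Real.rpow_lt_rpow ht0.le hη (z := 1 / (2 * θ)) (by positivity)
        rw [← Real.rpow_mul hp0.le, ← Real.rpow_mul hη0, mul_one_div_cancel (by linarith),
          Real.rpow_one] at this
        refine lt_of_eq_of_lt ?_ this
        congr 1; ring
      have e2 : η ^ (θ - 1) ≤ (p : ℝ) ^ ((1 - θ) * ((1 + c) / (2 * θ))) := by
        have := Real.rpow_le_rpow_of_nonpos (Real.rpow_pos_of_pos hp0 _) e1.le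
          (z := θ - 1) (by linarith)
        rw [← Real.rpow_mul hp0.le] at this
        refine this.trans (le_of_eq ?_)
        congr 1; ring
      have e3 : η ^ θ = η ^ (θ - 1) * η := by
        rw [Real.rpow_sub_one hηp.ne']
        field_simp
      rw [e3]
      have e4 : 12 * (p : ℝ) ^ (-((1 - κ) * (1 - θ))) * η ^ (θ - 1) ≤ θ - 1 / 2 := by
        have hh : (p : ℝ) ^ (-((1 - κ) * (1 - θ))) * (p : ℝ) ^ ((1 - θ) * ((1 + c) / (2 * θ))) =
            ((p : ℝ) ^ ((1 - θ) * δ))⁻¹ := by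
          rw [← Real.rpow_add hp0, ← Real.rpow_neg hp0.le]
          congr 1
          rw [hδ]; ring
        have h5 : ((p : ℝ) ^ ((1 - θ) * δ))⁻¹ ≤ (θ - 1 / 2) / 12 := by
          have h6 : (0 : ℝ) < 12 / (θ - 1 / 2) := div_pos (by norm_num) (by linarith)
          have := inv_anti₀ h6 hPp.1
          rwa [inv_div] at this
        calc 12 * (p : ℝ) ^ (-((1 - κ) * (1 - θ))) * η ^ (θ - 1)
            ≤ 12 * (p : ℝ) ^ (-((1 - κ) * (1 - θ))) * (p : ℝ) ^ ((1 - θ) * ((1 + c) / (2 * θ))) :=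
              mul_le_mul_of_nonneg_left e2 (by positivity)
          _ = 12 * ((p : ℝ) ^ ((1 - θ) * δ))⁻¹ := by rw [mul_assoc, hh]
          _ ≤ θ - 1 / 2 := by linarith
      calc 12 * (p : ℝ) ^ (-((1 - κ) * (1 - θ))) * (η ^ (θ - 1) * η)
          = (12 * (p : ℝ) ^ (-((1 - κ) * (1 - θ))) * η ^ (θ - 1)) * η := by ring
        _ ≤ (θ - 1 / 2) * η := mul_le_mul_of_nonneg_right e4 hη0
    rcases SPX_norm hθ hθ1 hb0 hb2 hbt N φ χ hφ hχ h1 h2 with h | ⟨k, hk, h⟩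
    · exact Or.inl (h.trans hC1)
    · refine Or.inr ⟨k, hk, h.trans ?_⟩
      have : 3 * (p : ℝ) ^ (-(1 + c)) ≤ C * (p : ℝ) ^ (-(1 + c)) :=
        mul_le_mul_of_nonneg_right hC3 ht0.le
      linarith

end Vale.P028
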