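import Vale.Agent.P028.MathlibUsed
import Vale.Agent.P028.R764.GrpD
import Vale.Agent.P028.FQ.LkTermD
attribute [-instance] ProperSMul.toContinuousSMul IsTopologicalTorsor.toContinuousSMul IdemSemiring.toCanonicallyOrderedAdd IdemSemiring.toMulLeftMono IdemSemiring.toMulRightMono AddQuantale.instAddLeftMono AddQuantale.instAddRightMono Quantale.instMulLeftMono Quantale.instMulRightMono FiniteDimensional.rclike_to_real IsScalarTower.complexToReal FiniteDimensional.complexToReal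

/-!
# The group bound of the leak classes with dilution, geometric form with natural weights
-/

namespace Vale.P028.SK

open Finset CF

/-- the factor of a pair of groups: a gain if the rests of the rough parts are small, a small loss
otherwise -/
noncomputable def kapG (ε K : ℝ) (a b : ℕ) : ℝ :=
  if (a : ℝ) < K ^ (1 / 20 : ℝ) ∧ (b : ℝ) < K ^ (1 / 20 : ℝ) then K ^ (-(1 / 400) : ℝ) else K ^ ε

/-- the size of the inner part: `log2 q` minus the logarithm of the rough part -/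
noncomputable def hgt (l R : ℕ) : ℝ := (l : ℝ) - Real.logb 2 R

open Classical in
/-- **The energy of the leak class between two groups** (constant rough part at stage `s`, constant
fraction, constant dyadic size), any dilution with the majorants `dq`, `dr` on the two groups. -/
def GrpG (g : Cfg) (C ε : ℝ) (i s : ℕ) : Prop :=
  ∀ δ : ℕ → ℕ → ℝ, Om δ → ∀ (Gq Gr : Finset ℕ) (R R' lq lr : ℕ) (F G : ℚ) (dq dr : ℕ → ℝ),
    Gq ⊆ V1 g → Gr ⊆ V1 g →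
    (∀ q ∈ Gq, Rg g s q = R ∧ Nat.log 2 q = lq ∧ Un g i s q F ∧ PA.Sw g.K.P (dat g) s q) →
    (∀ r ∈ Gr, Rg g s r = R' ∧ Nat.log 2 r = lr ∧ Un g i s r G) →
    (∀ q ∈ Gq, ∀ p, z g s < p → δ q p ≤ dq p) → (∀ r ∈ Gr, ∀ p, z g s < p → δ r p ≤ dr p) →
    ∀ q₁ ∈ Gq, ∀ r₁ ∈ Gr, ∀ n₁ ∈ Sh g q₁ r₁, LkD g δ i s q₁ r₁ n₁ →
    ∑ q ∈ Gq, ∑ r ∈ Gr.erase q, f g q * f g r / Dl g q r *
      ∑ n ∈ (Sh g q r).filter (fun n => LkD g δ i s q r n), Kd g δ q r n ≤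
    C * kapG ε (KS g i q₁ r₁ F G) (rsp g i s (BB g i q₁ r₁ F G) q₁ r₁)
        (rsp g i s (BB g i q₁ r₁ F G) r₁ q₁) *
      (1 + |hgt lr R' - hgt lq R|) ^ (-(2 : ℝ)) *
      (NT.Gn (rgh (z g s) (rcof (z g i) (N g) (kc g q₁) q₁ r₁)) *
        NT.Gn (rgh (z g s) (rcof (z g i) (N g) (kc g r₁) r₁ q₁))) ^ 2 *
      ((∏ p ∈ omS g i s (BB g i q₁ r₁ F G) q₁ r₁, dq p) *
        ∏ p ∈ omS g i s (BB g i q₁ r₁ F G) r₁ q₁, dr p) *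
      gmean ((∑ q ∈ Gq, f g q) * Wt g i r₁ /
          (rgh (z g s) (rcof (z g i) (N g) (kc g q₁) q₁ r₁) : ℝ))
        ((∑ r ∈ Gr, f g r) * Wt g i q₁ /
          (rgh (z g s) (rcof (z g i) (N g) (kc g r₁) r₁ q₁) : ℝ))

theorem final_geo {C₁ Ga Gb Sb Sa x3 E κ D Dec Q P Δ : ℝ} (hC₁ : 0 ≤ C₁) (hGa : 1 ≤ Ga)
    (hGb : 1 ≤ Gb) (hSb : 0 ≤ Sb) (hSa : 0 ≤ Sa) (hκ : 0 ≤ κ) (hD : 0 ≤ D) (hΔ : 0 ≤ Δ)
    (hm : x3 * E ≤ κ * D * Q) (ha : Sb * Sa * Q ≤ Real.exp 1 * (Ga * Gb) * P)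
    (hdec : D ≤ 4 * Dec) (hP : 0 ≤ P) :
    C₁ * x3 * (Ga * Gb) * Sb * Sa * Δ * E ≤
      C₁ * Real.exp 1 * 4 * κ * Dec * (Ga * Gb) ^ 2 * Δ * P := by
  have hG : 0 ≤ Ga * Gb := by positivity
  calc C₁ * x3 * (Ga * Gb) * Sb * Sa * Δ * E
      = C₁ * (Ga * Gb) * (Sb * Sa) * Δ * (x3 * E) := by ring
    _ ≤ C₁ * (Ga * Gb) * (Sb * Sa) * Δ * (κ * D * Q) :=
        mul_le_mul_of_nonneg_left hm (by positivity)
    _ = C₁ * (Ga * Gb) * Δ * κ * D * (Sb * Sa * Q) := by ring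
    _ ≤ C₁ * (Ga * Gb) * Δ * κ * D * (Real.exp 1 * (Ga * Gb) * P) :=
        mul_le_mul_of_nonneg_left ha (by positivity)
    _ = C₁ * Real.exp 1 * κ * (Ga * Gb) ^ 2 * Δ * P * D := by ring
    _ ≤ C₁ * Real.exp 1 * κ * (Ga * Gb) ^ 2 * Δ * P * (4 * Dec) :=
        mul_le_mul_of_nonneg_left hdec (by positivity)
    _ = _ := by ring

variable {g : Cfg}


/-- the data of a pair of groups -/
structure GC (g : Cfg) (δ : ℕ → ℕ → ℝ) (i s : ℕ) (Gq Gr : Finset ℕ) (R R' lq lr : ℕ) (F G : ℚ)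
    (q₁ r₁ : ℕ) : Prop where
  hJ : JsOK g.K g.Js
  hX : g.Js ≤ g.X
  hV : g.V ⊆ Icc 1 (N g)
  hi : 1 ≤ i
  his : i < s
  hsn : s ≤ nst g
  hGq1 : Gq ⊆ V1 g
  hGr1 : Gr ⊆ V1 g
  hGq : ∀ q ∈ Gq, Rg g s q = R ∧ Nat.log 2 q = lq ∧ Un g i s q F ∧ PA.Sw g.K.P (dat g) s q
  hGr : ∀ r ∈ Gr, Rg g s r = R' ∧ Nat.log 2 r = lr ∧ Un g i s r G
  hq₁ : q₁ ∈ Gq
  hr₁ : r₁ ∈ Gr
  hc₁ : Clean g (z g i) q₁ r₁

section

variable {δ : ℕ → ℕ → ℝ} {i s : ℕ} {Gq Gr : Finset ℕ} {R R' lq lr : ℕ} {F G : ℚ} {q₁ r₁ : ℕ}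

theorem GC.Vq (h : GC g δ i s Gq Gr R R' lq lr F G q₁ r₁) : ∀ q ∈ Gq, q ∈ g.V :=
  fun _ hq => (mem_filter.1 (mem_filter.1 (h.hGq1 hq)).1).1

theorem GC.Vr (h : GC g δ i s Gq Gr R R' lq lr F G q₁ r₁) : ∀ r ∈ Gr, r ∈ g.V :=
  fun _ hr => (mem_filter.1 (mem_filter.1 (h.hGr1 hr)).1).1

theorem GC.zi (h : GC g δ i s Gq Gr R R' lq lr F G q₁ r₁) : zs g ≤ z g i := zs_le_z h.hJ h.hX i

theorem GC.si (h : GC g δ i s Gq Gr R R' lq lr F G q₁ r₁) : z g s ≤ z g i := z_anti g h.his.le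

theorem GC.Rq (h : GC g δ i s Gq Gr R R' lq lr F G q₁ r₁) {q : ℕ} (hq : q ∈ Gq) :
    Rg g s q = Rg g s q₁ := (h.hGq q hq).1.trans (h.hGq q₁ h.hq₁).1.symm

theorem GC.Rr (h : GC g δ i s Gq Gr R R' lq lr F G q₁ r₁) {r : ℕ} (hr : r ∈ Gr) :
    Rg g s r = Rg g s r₁ := (h.hGr r hr).1.trans (h.hGr r₁ h.hr₁).1.symm

theorem GC.inv (h : GC g δ i s Gq Gr R R' lq lr F G q₁ r₁) {q r : ℕ} (hq : q ∈ Gq) (hr : r ∈ Gr)
    (hc : Clean g (z g i) q r) :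
    rgh (z g s) (rcof (z g i) (N g) (kc g q) q r) =
        rgh (z g s) (rcof (z g i) (N g) (kc g q₁) q₁ r₁) ∧
      rgh (z g s) (rcof (z g i) (N g) (kc g q) r q) =
        rgh (z g s) (rcof (z g i) (N g) (kc g q₁) r₁ q₁) :=
  rgh_rcof_congr h.hV h.zi h.si (h.Vq q hq) (h.Vr r hr) (h.Vq q₁ h.hq₁) (h.Vr r₁ h.hr₁) hc h.hc₁
      (h.Rq hq) (h.Rr hr)

theorem GC.Mq (h : GC g δ i s Gq Gr R R' lq lr F G q₁ r₁) {q : ℕ} (hq : q ∈ Gq) :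
    M g i q = M g i q₁ :=
  M_of_Rg h.hV (h.Vq q₁ h.hq₁) (h.Vq q hq) (Rg_eq_of_le h.si (h.Rq hq))

theorem GC.Mr (h : GC g δ i s Gq Gr R R' lq lr F G q₁ r₁) {r : ℕ} (hr : r ∈ Gr) :
    M g i r = M g i r₁ :=
  M_of_Rg h.hV (h.Vr r₁ h.hr₁) (h.Vr r hr) (Rg_eq_of_le h.si (h.Rr hr))

theorem GC.Ms (h : GC g δ i s Gq Gr R R' lq lr F G q₁ r₁) {q : ℕ} (hq : q ∈ Gq) :
    M g s q = M g s q₁ := M_of_Rg h.hV (h.Vq q₁ h.hq₁) (h.Vq q hq) (h.Rq hq)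

theorem GC.B (h : GC g δ i s Gq Gr R R' lq lr F G q₁ r₁) {q r : ℕ} (hq : q ∈ Gq) (hr : r ∈ Gr) :
    BB g i q r F G = BB g i q₁ r₁ F G := by
  unfold BB
  rw [h.Mq hq, h.Mr hr]

theorem GC.S (h : GC g δ i s Gq Gr R R' lq lr F G q₁ r₁) {q r : ℕ} (hq : q ∈ Gq) (hr : r ∈ Gr)
    (hc : Clean g (z g i) q r) (B : ℕ) :
    omS g i s B q r = omS g i s B q₁ r₁ ∧ omS g i s B r q = omS g i s B r₁ q₁ ∧
      rsp g i s B q r = rsp g i s B q₁ r₁ ∧ rsp g i s B r q = rsp g i s B r₁ q₁ := by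
  have hc' := Clean.swap (h.Vr r hr) hc
  have hc₁' := Clean.swap (h.Vr r₁ h.hr₁) h.hc₁
  have a := h.Vq q hq
  have b := h.Vr r hr
  have a' := h.Vq q₁ h.hq₁
  have b' := h.Vr r₁ h.hr₁
  exact ⟨omS_congr h.hV h.zi h.si a b a' b' hc h.hc₁ (h.Rq hq) (h.Rr hr),
    omS_congr h.hV h.zi h.si b a b' a' hc' hc₁' (h.Rr hr) (h.Rq hq),
    (omp_congr h.hV h.zi h.si a b a' b' hc h.hc₁ (h.Rq hq) (h.Rr hr)).2,
    (omp_congr h.hV h.zi h.si b a b' a' hc' hc₁' (h.Rr hr) (h.Rq hq)).2⟩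

theorem GC.roq (h : GC g δ i s Gq Gr R R' lq lr F G q₁ r₁) {q : ℕ} (hq : q ∈ Gq) :
    ro (z g s) q = ro (z g s) q₁ ∧ ro (z g i) q = ro (z g i) q₁ := by
  have e := h.Rq hq
  rw [ro_eq_Rg h.hV (h.Vq q hq), ro_eq_Rg h.hV (h.Vq q₁ h.hq₁), ro_eq_Rg h.hV (h.Vq q hq),
    ro_eq_Rg h.hV (h.Vq q₁ h.hq₁), e, Rg_eq_of_le h.si e]
  exact ⟨rfl, rfl⟩

theorem GC.ror (h : GC g δ i s Gq Gr R R' lq lr F G q₁ r₁) {r : ℕ} (hr : r ∈ Gr) :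
    ro (z g s) r = ro (z g s) r₁ ∧ ro (z g i) r = ro (z g i) r₁ := by
  have e := h.Rr hr
  rw [ro_eq_Rg h.hV (h.Vr r hr), ro_eq_Rg h.hV (h.Vr r₁ h.hr₁), ro_eq_Rg h.hV (h.Vr r hr),
    ro_eq_Rg h.hV (h.Vr r₁ h.hr₁), e, Rg_eq_of_le h.si e]
  exact ⟨rfl, rfl⟩

/-- the facts about a pair -/
theorem GC.pair (h : GC g δ i s Gq Gr R R' lq lr F G q₁ r₁) {q r : ℕ} (hq : q ∈ Gq) (hr : r ∈ Gr)
    {n : ℤ} (hLk : LkD g δ i s q r n) :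
    ((n : ℚ) + F * ((cofac r q : ℤ) : ℚ) - G * ((cofac q r : ℤ) : ℚ) = 0) ∧
      (Real.log (CF.KK g i q F)) ^ (3 / 2 : ℝ) ≤ z g s ∧
      (Real.log (CF.KK g i r G)) ^ (3 / 2 : ℝ) ≤ z g s ∧
      (KS g i q r F G) ^ (1 / 8 : ℝ) ≤ mrs g δ (z g s) (BB g i q₁ r₁ F G) i q r := by
  obtain ⟨hT, -, -, F', G', hUF, hUG, -, hy, hmx⟩ := hLk
  obtain ⟨F₂, b, G₂, b', s1, s2, s3⟩ := hT.1
  obtain ⟨c1, t1⟩ := (h.hGq q hq).2.2.1 i le_rfl h.his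
  obtain ⟨c2, t2⟩ := (h.hGr r hr).2.2 i le_rfl h.his
  obtain ⟨c3, t3⟩ := hUF i le_rfl h.his
  obtain ⟨c4, t4⟩ := hUG i le_rfl h.his
  have eF : F' = F := by
    have := t3.symm.trans t1
    simp only [Option.some.injEq, Prod.mk.injEq] at this
    exact this.1
  have eG : G' = G := by
    have := t4.symm.trans t2
    simp only [Option.some.injEq, Prod.mk.injEq] at this
    exact this.1
  have eF2 : F₂ = F := by
    have := s1.symm.trans t1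
    simp only [Option.some.injEq, Prod.mk.injEq] at this
    exact this.1
  have eG2 : G₂ = G := by
    have := s2.symm.trans t2
    simp only [Option.some.injEq, Prod.mk.injEq] at this
    exact this.1
  rw [eF2, eG2] at s3
  rw [eF, eG, h.B hq hr] at hmx
  rw [eF, eG] at hy
  have hyy : ∀ K : ℝ, 1 ≤ K → K ≤ KS g i q r F G → (Real.log K) ^ (3 / 2 : ℝ) ≤ z g s := by
    intro K hK1 hK2
    have a1 : (Real.log K) ^ (3 / 2 : ℝ) ≤ (Real.log (KS g i q r F G)) ^ (3 / 2 : ℝ) :=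
      Real.rpow_le_rpow (Real.log_nonneg hK1) (Real.log_le_log (by linarith) hK2) (by norm_num)
    have a2 : ((yK (zs g) (KS g i q r F G) : ℕ) : ℝ) ≤ z g s := by exact_mod_cast hy.le
    exact a1.trans ((log_le_yK _ _).trans a2)
  exact ⟨s3, hyy _ (one_le_KK' _ _ _) (le_max_left _ _),
    hyy _ (one_le_KK' _ _ _) (le_max_right _ _), hmx⟩

theorem GC.Bd (h : GC g δ i s Gq Gr R R' lq lr F G q₁ r₁) {q r : ℕ} (hq : q ∈ Gq) (hr : r ∈ Gr) :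
    ((M g i r : ℚ) * G).den ∣ BB g i q₁ r₁ F G ∧ ((M g i q : ℚ) * F).den ∣ BB g i q₁ r₁ F G := by
  rw [← h.B hq hr]
  exact ⟨dvd_mul_left _ _, dvd_mul_right _ _⟩

theorem GC.al_swap {q r : ℕ} {n : ℤ} {F G : ℚ}
    (h : (n : ℚ) + F * ((cofac r q : ℤ) : ℚ) - G * ((cofac q r : ℤ) : ℚ) = 0) :
    ((-n : ℤ) : ℚ) + G * ((cofac q r : ℤ) : ℚ) - F * ((cofac r q : ℤ) : ℚ) = 0 := by
  push_cast at h ⊢
  linarith

/-- the primes of the omitted parts are leaking -/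
theorem GC.Lks (h : GC g δ i s Gq Gr R R' lq lr F G q₁ r₁) {q r : ℕ} (hq : q ∈ Gq) (hr : r ∈ Gr)
    {n : ℤ} (hn : n ∈ Sh g q r) (hLk : LkD g δ i s q r n) (hKd : Kd g δ q r n ≠ 0) :
    omS g i s (BB g i q₁ r₁ F G) q r ⊆ SK.Lks g (z g i) q r n ∧
      omS g i s (BB g i q₁ r₁ F G) r q ⊆ SK.Lks g (z g i) r q (-n) := by
  obtain ⟨s3, hl1, hl2, -⟩ := h.pair hq hr hLk
  have hc : Clean g (z g i) q r := hLk.1.2.2.1
  have hc' := Clean.swap (h.Vr r hr) hc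
  obtain ⟨hB1, hB2⟩ := h.Bd hq hr
  exact ⟨fun p hp => (omS_sub_Lks h.hJ h.hX h.hV h.hi h.his h.hsn (h.Vq q hq) (h.Vr r hr) hc
      (h.hGq q hq).2.2.1 s3 hl1 hn hKd hB1 p hp).1,
    fun p hp => (omS_sub_Lks h.hJ h.hX h.hV h.hi h.his h.hsn (h.Vr r hr) (h.Vq q hq) hc'
      (h.hGr r hr).2.2 (n := -n) (GC.al_swap s3) hl2 (Sh_neg hn) (by rw [Kd_swap]; exact hKd)
      hB2 p hp).1⟩

/-- the relation of the smooth parts -/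
def GCΩ (g : Cfg) (δ : ℕ → ℕ → ℝ) (i s : ℕ) (Gq Gr : Finset ℕ) (u v : ℕ) : Prop :=
  ∃ q ∈ Gq, ∃ r ∈ Gr, ∃ n ∈ Sh g q r, LkD g δ i s q r n ∧
    Kd g δ q r n ≠ 0 ∧ u = cofac (inn g s q) (inn g s r) ∧ v = cofac (inn g s r) (inn g s q)

theorem GC.rel (h : GC g δ i s Gq Gr R R' lq lr F G q₁ r₁) {K : ℝ} (hKdef : K = KS g i q₁ r₁ F G)
    (hK1 : 1 ≤ K)
    (hals : ((rsp g i s (BB g i q₁ r₁ F G) q₁ r₁ : ℕ) : ℝ) < K ^ (1 / 20 : ℝ))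
    (hbes : ((rsp g i s (BB g i q₁ r₁ F G) r₁ q₁ : ℕ) : ℝ) < K ^ (1 / 20 : ℝ)) (u v : ℕ)
    (hΩ : GCΩ g δ i s Gq Gr u v) :
    LeakRel (K ^ (1 / 2 : ℝ) / 4)
        (((cofac R' R : ℕ) : ℚ) * F).num (((cofac R' R : ℕ) : ℚ) * F).den
        (((cofac R R' : ℕ) : ℚ) * G).num (((cofac R R' : ℕ) : ℚ) * G).den
        ((g.γ - F) * (cofac R' R : ℕ)) ((g.γ - G) * (cofac R R' : ℕ)) (z g s) u v := by
  obtain ⟨q, hq, r, hr, n, hn, hLk, hKd, rfl, rfl⟩ := hΩ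
  have hV := h.hV
  have hJ := h.hJ
  have hX := h.hX
  have hX1 : 1 ≤ g.X := by
    have := hJ.1
    linarith
  have hzi := h.zi
  have hq₁V := h.Vq q₁ h.hq₁
  have hr₁V := h.Vr r₁ h.hr₁
  have hq₁I := mem_Icc.1 (hV hq₁V)
  have hr₁I := mem_Icc.1 (hV hr₁V)
  have hq0 := (mem_Icc.1 (hV (h.Vq q hq))).1
  have hr0 := (mem_Icc.1 (hV (h.Vr r hr))).1
  have hc₁ := h.hc₁
  obtain ⟨eU, eV⟩ := cofac_Rg_eq hV hzi h.si hq₁V hr₁V hc₁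
  rw [(h.hGq q₁ h.hq₁).1, (h.hGr r₁ h.hr₁).1] at eU eV
  have e1 := cofac_split (g := g) (s := s) hq0 hr0
  have e2 := cofac_split (g := g) (s := s) hr0 hq0
  rw [(h.hGq q hq).1, (h.hGr r hr).1] at e1 e2
  obtain ⟨s3, hl1, hl2, hmx⟩ := h.pair hq hr hLk
  have hc : Clean g (z g i) q r := hLk.1.2.2.1
  have hc' := Clean.swap (h.Vr r hr) hc
  obtain ⟨k1, k2, -, k4, k5⟩ := clean_cofac hV hzi (h.Vq q hq) (h.Vr r hr) hc
  obtain ⟨i1, i2⟩ := h.inv hq hr hc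
  obtain ⟨hB1, hB2⟩ := h.Bd hq hr
  obtain ⟨hB3, hB4⟩ := h.Bd h.hq₁ h.hr₁
  obtain ⟨-, -, i5, i6⟩ := h.S hq hr hc (BB g i q₁ r₁ F G)
  have hKS : K / 2 ≤ KS g i q r F G := by
    have := KS_group (g := g) hq₁I.1 hq0 hr₁I.1 hr0 (h.Mq hq).symm
      ((h.hGq q₁ h.hq₁).2.1.trans (h.hGq q hq).2.1.symm) (h.Mr hr).symm
      ((h.hGr r₁ h.hr₁).2.1.trans (h.hGr r hr).2.1.symm) F G
    rw [← hKdef] at this
    linarith
  have f1 : rcof (z g i) (N g) (kc g q) q r =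
      rgh (z g s) (rcof (z g i) (N g) (kc g q₁) q₁ r₁) * cofac (inn g s q) (inn g s r) := by
    have h1 : M g i r₁ * rcof (z g i) (N g) (kc g q) q r =
        M g i r₁ * (rgh (z g s) (rcof (z g i) (N g) (kc g q₁) q₁ r₁) *
          cofac (inn g s q) (inn g s r)) := by
      rw [← h.Mr hr, ← k1, e1, eU, h.Mr hr]
      ring
    exact Nat.eq_of_mul_eq_mul_left (M_pos g i r₁) h1
  have f2 : rcof (z g i) (N g) (kc g q) r q =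
      rgh (z g s) (rcof (z g i) (N g) (kc g q₁) r₁ q₁) * cofac (inn g s r) (inn g s q) := by
    have h1 : M g i q₁ * rcof (z g i) (N g) (kc g q) r q =
        M g i q₁ * (rgh (z g s) (rcof (z g i) (N g) (kc g q₁) r₁ q₁) *
          cofac (inn g s r) (inn g s q)) := by
      rw [← h.Mq hq, ← k2, e2, eV, h.Mq hq]
      ring
    exact Nat.eq_of_mul_eq_mul_left (M_pos g i q₁) h1
  have hsw : rcof (z g i) (N g) (kc g r) r q = rcof (z g i) (N g) (kc g q) r q :=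
    rcof_swap hV hzi (h.Vq q hq) (h.Vr r hr) hc r q
  have hsw₁ : rcof (z g i) (N g) (kc g r₁) r₁ q₁ = rcof (z g i) (N g) (kc g q₁) r₁ q₁ :=
    rcof_swap hV hzi hq₁V hr₁V hc₁ r₁ q₁
  have t1 : rst g δ (z g s) (BB g i q₁ r₁ F G) q (rcof (z g i) (N g) (kc g q) q r) ≤
      rsp g i s (BB g i q₁ r₁ F G) q₁ r₁ * cofac (inn g s q) (inn g s r) := by
    rw [← i5]
    exact rst_le hJ hX hV h.hi h.his h.hsn (h.Vq q hq) (h.Vr r hr) hc (h.hGq q hq).2.2.1 s3 hl1 hn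
      hKd hB1 (by rw [i1]; exact f1)
  have t2 : rst g δ (z g s) (BB g i q₁ r₁ F G) r (rcof (z g i) (N g) (kc g q) r q) ≤
      rsp g i s (BB g i q₁ r₁ F G) r₁ q₁ * cofac (inn g s r) (inn g s q) := by
    rw [← i6, ← hsw]
    exact rst_le hJ hX hV h.hi h.his h.hsn (h.Vr r hr) (h.Vq q hq) hc' (h.hGr r hr).2.2 (n := -n)
      (GC.al_swap s3) hl2 (Sh_neg hn) (by rw [Kd_swap]; exact hKd) hB2 (by rw [hsw, i2]; exact f2)
  have hmx2 : (KS g i q r F G) ^ (1 / 8 : ℝ) ≤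
      max ((rsp g i s (BB g i q₁ r₁ F G) q₁ r₁ * cofac (inn g s q) (inn g s r) : ℕ) : ℝ)
        ((rsp g i s (BB g i q₁ r₁ F G) r₁ q₁ * cofac (inn g s r) (inn g s q) : ℕ) : ℝ) := by
    refine hmx.trans (max_le_max ?_ ?_)
    · exact_mod_cast t1
    · exact_mod_cast t2
  refine lk_leakRelD hV hX1 (h.Vq q hq) (h.Vr r hr) hn s3 e1 e2
    (a1 := omp g i s (BB g i q₁ r₁ F G) q₁ r₁) (a2 := rsp g i s (BB g i q₁ r₁ F G) q₁ r₁)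
    (b1 := omp g i s (BB g i q₁ r₁ F G) r₁ q₁) (b2 := rsp g i s (BB g i q₁ r₁ F G) r₁ q₁)
    (by rw [omp_mul_rsp, eU, h.Mr hr]) (by rw [omp_mul_rsp, hsw₁, eV, h.Mq hq]) hK1 hKS ?_ ?_ hmx2
    hals hbes (by positivity) le_rfl (inn_smooth hV (h.Vq q hq) (h.Vr r hr))
  · exact omp_coprime hV hzi hq₁V hr₁V hc₁ hB1
  · exact omp_coprime hV hzi hr₁V hq₁V (Clean.swap hr₁V hc₁) hB2

open Classical in
/-- the sum of the two groups is at most the constant of the terms times the energy of the inner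
parts -/
theorem GC.sum_le (h : GC g δ i s Gq Gr R R' lq lr F G q₁ r₁) (hδ : Om δ) {C₁ : ℝ} (hC₁ : 0 ≤ C₁)
    {dq dr : ℕ → ℝ}
    (hdq : ∀ q ∈ Gq, ∀ p, z g s < p → δ q p ≤ dq p) (hdr : ∀ r ∈ Gr, ∀ p, z g s < p → δ r p ≤ dr p)
    (hterm : ∀ δ, Om δ → ∀ i s q r n, i ≤ s → q ∈ V1 g → r ∈ V1 g →
      n ∈ Sh g q r → TAj g i q r n → Dl g q r ≤ z g i →
      ∀ U ⊆ SK.Lks g (z g i) q r n, ∀ U' ⊆ SK.Lks g (z g i) r q (-n),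
      f g q * f g r / Dl g q r * Kd g δ q r n ≤ C₁ * (1 + Real.log (z g s)) ^ 3 *
      (NT.Gn (rgh (z g s) (rcof (z g i) (N g) (kc g q) q r)) *
        NT.Gn (rgh (z g s) (rcof (z g i) (N g) (kc g q) r q))) *
      Real.sqrt (ro (z g i) q * ro (z g i) r) * Real.sqrt (ro (z g s) q * ro (z g s) r) *
      ((∏ p ∈ U, δ q p) * ∏ p ∈ U', δ r p) *
      ((f g q / ro (z g s) q) * (f g r / ro (z g s) r) / Dl g q r)) :
    ∑ q ∈ Gq, ∑ r ∈ Gr.erase q, f g q * f g r / Dl g q r *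
      ∑ n ∈ (Sh g q r).filter (fun n => LkD g δ i s q r n), Kd g δ q r n ≤
    C₁ * (1 + Real.log (z g s)) ^ 3 *
      (NT.Gn (rgh (z g s) (rcof (z g i) (N g) (kc g q₁) q₁ r₁)) *
        NT.Gn (rgh (z g s) (rcof (z g i) (N g) (kc g q₁) r₁ q₁))) *
      Real.sqrt (ro (z g i) q₁ * ro (z g i) r₁) * Real.sqrt (ro (z g s) q₁ * ro (z g s) r₁) *
      ((∏ p ∈ omS g i s (BB g i q₁ r₁ F G) q₁ r₁, dq p) *
        ∏ p ∈ omS g i s (BB g i q₁ r₁ F G) r₁ q₁, dr p) *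
      (1 / ((cofac R R' : ℝ) * cofac R' R) * eng (GCΩ g δ i s Gq Gr) (N g)
      (fun x => (cofac R' R : ℝ) * ψ g (R * x)) (fun y => (cofac R R' : ℝ) * ψ g (R' * y))
      (fun x => (cofac R' R : ℝ) * (if R * x ∈ Gq then ft g s (R * x) else 0))
      (fun y => (cofac R R' : ℝ) * (if R' * y ∈ Gr then ft g s (R' * y) else 0))) := by
  have hV := h.hV
  have hX1 : 1 ≤ g.X := by
    have := h.hJ.1
    have := h.hX
    linarith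
  have hzi := h.zi
  have hq₁V := h.Vq q₁ h.hq₁
  have hr₁V := h.Vr r₁ h.hr₁
  have hc₁ := h.hc₁
  have hdq0 : ∀ p ∈ omS g i s (BB g i q₁ r₁ F G) q₁ r₁, 0 ≤ dq p := fun p hp =>
    (hδ q₁ p).1.trans (hdq q₁ h.hq₁ p (mem_omS hV hzi hq₁V hr₁V hc₁ hp).2.1)
  have hdr0 : ∀ p ∈ omS g i s (BB g i q₁ r₁ F G) r₁ q₁, 0 ≤ dr p := fun p hp =>
    (hδ r₁ p).1.trans (hdr r₁ h.hr₁ p (mem_omS hV hzi hr₁V hq₁V (Clean.swap hr₁V hc₁) hp).2.1)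
  have hlz0 : 0 ≤ Real.log (z g s) := Real.log_natCast_nonneg _
  have hGa1 := one_le_Gn (rgh (z g s) (rcof (z g i) (N g) (kc g q₁) q₁ r₁))
  have hGb1 := one_le_Gn (rgh (z g s) (rcof (z g i) (N g) (kc g q₁) r₁ q₁))
  set Δ : ℝ := (∏ p ∈ omS g i s (BB g i q₁ r₁ F G) q₁ r₁, dq p) *
    ∏ p ∈ omS g i s (BB g i q₁ r₁ F G) r₁ q₁, dr p with hΔ
  have hΔ0 : 0 ≤ Δ := mul_nonneg (prod_nonneg hdq0) (prod_nonneg hdr0)
  set A : ℝ := C₁ * (1 + Real.log (z g s)) ^ 3 *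
      (NT.Gn (rgh (z g s) (rcof (z g i) (N g) (kc g q₁) q₁ r₁)) *
        NT.Gn (rgh (z g s) (rcof (z g i) (N g) (kc g q₁) r₁ q₁))) *
      Real.sqrt (ro (z g i) q₁ * ro (z g i) r₁) * Real.sqrt (ro (z g s) q₁ * ro (z g s) r₁) with hA
  have hA0 : 0 ≤ A := by positivity
  have hR0 : 0 < R := (h.hGq q₁ h.hq₁).1 ▸ Rg_pos s q₁
  have hR0' : 0 < R' := (h.hGr r₁ h.hr₁).1 ▸ Rg_pos s r₁
  have hge := grp_eng hV hX1 (fun q hq => ⟨h.Vq q hq, (h.hGq q hq).1⟩)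
    (fun r hr => ⟨h.Vr r hr, (h.hGr r hr).1⟩) hR0 hR0' (GCΩ g δ i s Gq Gr)
  rw [← hge, mul_sum]
  refine sum_le_sum fun q hq => ?_
  rw [mul_sum]
  have hq0 := (mem_Icc.1 (hV (h.Vq q hq))).1
  have hterm1 : ∀ r ∈ Gr, f g q * f g r / Dl g q r *
      ∑ n ∈ (Sh g q r).filter (fun n => LkD g δ i s q r n), Kd g δ q r n ≤
      A * Δ * (if GCΩ g δ i s Gq Gr (cofac (inn g s q) (inn g s r))
        (cofac (inn g s r) (inn g s q)) then ft g s q * ft g s r / Dl g q r else 0) := by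
    intro r hr
    have hr0 := (mem_Icc.1 (hV (h.Vr r hr))).1
    have hD0 : 0 < Dl g q r := Dl_pos g hq0 hr0
    have hrhs : 0 ≤ A * Δ * (if GCΩ g δ i s Gq Gr (cofac (inn g s q) (inn g s r))
        (cofac (inn g s r) (inn g s q)) then ft g s q * ft g s r / Dl g q r else 0) := by
      refine mul_nonneg (mul_nonneg hA0 hΔ0) ?_
      split_ifs
      · exact div_nonneg (mul_nonneg (ft_nonneg _ _) (ft_nonneg _ _)) hD0.le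
      · exact le_rfl
    rcases ((Sh g q r).filter (fun n => LkD g δ i s q r n)).eq_empty_or_nonempty with h0 | ⟨n, hn⟩
    · rw [h0, sum_empty, mul_zero]
      exact hrhs
    have hn' := mem_filter.1 hn
    have e1 : (Sh g q r).filter (fun n => LkD g δ i s q r n) = {n} := by
      refine eq_singleton_iff_unique_mem.2 ⟨hn, fun n' hn2 => ?_⟩
      exact Al_unique (mem_filter.1 hn2).2.1.1 hn'.2.1.1
    rw [e1, sum_singleton]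
    by_cases hKd : Kd g δ q r n = 0
    · rw [hKd, mul_zero]
      exact hrhs
    rw [if_pos ⟨q, hq, r, hr, n, hn'.1, hn'.2, hKd, rfl, rfl⟩]
    have hc : Clean g (z g i) q r := hn'.2.1.2.2.1
    obtain ⟨hU1, hU2⟩ := h.Lks hq hr hn'.1 hn'.2 hKd
    obtain ⟨i3, i4, -, -⟩ := h.S hq hr hc (BB g i q₁ r₁ F G)
    have h1 := hterm δ hδ i s q r n h.his.le
      (h.hGq1 hq) (h.hGr1 hr) hn'.1 hn'.2.1 hn'.2.2.1 _ hU1 _ hU2
    obtain ⟨i1, i2⟩ := h.inv hq hr hc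
    rw [i1, i2, (h.roq hq).1, (h.roq hq).2, (h.ror hr).1, (h.ror hr).2, i3, i4, ← hA] at h1
    refine h1.trans ?_
    have hd1 : (∏ p ∈ omS g i s (BB g i q₁ r₁ F G) q₁ r₁, δ q p) *
        ∏ p ∈ omS g i s (BB g i q₁ r₁ F G) r₁ q₁, δ r p ≤ Δ := by
      refine mul_le_mul (prod_le_prod (fun p _ => (hδ q p).1) fun p hp => ?_)
        (prod_le_prod (fun p _ => (hδ r p).1) fun p hp => ?_)
        (prod_nonneg fun p _ => (hδ r p).1) (prod_nonneg hdq0)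
      · exact hdq q hq p (mem_omS hV hzi hq₁V hr₁V hc₁ hp).2.1
      · exact hdr r hr p (mem_omS hV hzi hr₁V hq₁V (Clean.swap hr₁V hc₁) hp).2.1
    have h3 : 0 ≤ f g q / ro (z g s) q₁ * (f g r / ro (z g s) r₁) / Dl g q r :=
      div_nonneg (mul_nonneg (div_nonneg (f_nonneg g q) (ro_nonneg _ _))
        (div_nonneg (f_nonneg g r) (ro_nonneg _ _))) hD0.le
    refine (mul_le_mul_of_nonneg_right (mul_le_mul_of_nonneg_left hd1 hA0) h3).trans (le_of_eq ?_)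
    unfold ft
    rw [(h.roq hq).1, (h.ror hr).1]
  refine (sum_le_sum fun r hr => hterm1 r (mem_of_mem_erase hr)).trans ?_
  refine sum_le_sum_of_subset_of_nonneg (erase_subset _ _) fun r hr _ => ?_
  refine mul_nonneg (mul_nonneg hA0 hΔ0) ?_
  have hr0 := (mem_Icc.1 (hV (h.Vr r hr))).1
  split_ifs
  · exact div_nonneg (mul_nonneg (ft_nonneg _ _) (ft_nonneg _ _)) (Dl_pos g hq0 hr0).le
  · exact le_rfl

/-- levels of the weights -/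
theorem GC.levels (h : GC g δ i s Gq Gr R R' lq lr F G q₁ r₁) {K : ℝ}
    (hKdef : K = KS g i q₁ r₁ F G) (hK8 : 8192 ≤ K) (x : ℕ)
    (hx : (if R * x ∈ Gq then ft g s (R * x) else 0) ≠ 0) :
    K ^ (-(2 / g.K.P.c0)) ≤ (M g s q₁ : ℝ) * ψ g (R * x) := by
  by_cases hxG : R * x ∈ Gq
  swap
  · rw [if_neg hxG] at hx
    exact absurd rfl hx
  obtain ⟨v1, v2, v3, v4⟩ := h.hGq _ hxG
  have hKq : CF.KK g i q₁ F ≤ K := hKdef ▸ le_max_left _ _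
  have hq₁I := mem_Icc.1 (h.hV (h.Vq q₁ h.hq₁))
  have h1 : CF.KK g i (R * x) F ≤ 2 * K := by
    refine (KK_group (mem_Icc.1 (h.hV (h.Vq _ hxG))).1 hq₁I.1 (h.Mq hxG)
      (v2.trans (h.hGq q₁ h.hq₁).2.1.symm) F).trans ?_
    linarith
  obtain ⟨-, w2, -⟩ := Un_facts_K v4 v3 h.his h1
  rw [h.Ms hxG] at w2
  refine le_trans ?_ w2.le
  have hc0 := g.K.P.c0_pos
  have hK0 : 0 < K := by linarith
  have h2 : 2 * K ≤ K ^ (2 : ℝ) := by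
    rw [show (2 : ℝ) = ((2 : ℕ) : ℝ) by norm_num, Real.rpow_natCast]
    push_cast
    nlinarith
  calc K ^ (-(2 / g.K.P.c0)) = (K ^ (2 : ℝ)) ^ (-(1 / g.K.P.c0)) := by
        rw [← Real.rpow_mul hK0.le]
        congr 1
        ring
    _ ≤ (2 * K) ^ (-(1 / g.K.P.c0)) := Real.rpow_le_rpow_of_nonpos (by linarith) h2 (by
        rw [neg_nonpos]
        positivity)

/-- the mass of the group of the inner parts -/
theorem GC.mass (h : GC g δ i s Gq Gr R R' lq lr F G q₁ r₁) (hcm : g.K.P.cm = 1) {K : ℝ}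
    (hKdef : K = KS g i q₁ r₁ F G) :
    (M g s q₁ : ℝ) * ∑ q ∈ Gq, ft g s q ≤ 8 * K := by
  have hKq : CF.KK g i q₁ F ≤ K := hKdef ▸ le_max_left _ _
  have h1 := Un_mass (Gq := Gq) hcm h.hV h.his (h.Vq q₁ h.hq₁) (fun q hq => ⟨h.Vq q hq,
    h.Rq hq, (h.hGq q hq).2.1.trans (h.hGq q₁ h.hq₁).2.1.symm, (h.hGq q hq).2.2.1,
    (h.hGq q hq).2.2.2⟩)
  unfold ft
  refine h1.trans ?_
  have h0 : 1 ≤ CF.KK g i q₁ F := one_le_KK' _ _ _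
  linarith

/-- the inner parts are far apart in size -/
theorem GC.large (h : GC g δ i s Gq Gr R R' lq lr F G q₁ r₁) (u v : ℕ)
    (hΩ : GCΩ g δ i s Gq Gr u v) :
    (2 : ℝ) ^ max 0 (|hgt lr R' - hgt lq R| - 1) ≤ max (u : ℝ) v := by
  obtain ⟨q, hq, r, hr, n, hn, hLk, -, rfl, rfl⟩ := hΩ
  have hq0 := (mem_Icc.1 (h.hV (h.Vq q hq))).1
  have hb1 := inn_big (s := s) h.hV (h.Vq q hq) (h.Vr r hr)
  rw [(h.hGq q hq).1, (h.hGr r hr).1, (h.hGq q hq).2.1, (h.hGr r hr).2.1] at hb1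
  have hmx1 : (1 : ℝ) ≤ max (cofac (inn g s q) (inn g s r) : ℝ)
      (cofac (inn g s r) (inn g s q)) :=
    le_trans (by exact_mod_cast cofac_pos _ (inn_pos hq0)) (le_max_left _ _)
  rw [← Real.le_logb_iff_rpow_le (by norm_num) (by linarith)]
  exact max_le (Real.logb_nonneg (by norm_num) hmx1) hb1

theorem GC.sums (h : GC g δ i s Gq Gr R R' lq lr F G q₁ r₁) :
    ∑ q ∈ Gq, ft g s q = (∑ q ∈ Gq, f g q) / ro (z g s) q₁ ∧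
      ∑ r ∈ Gr, ft g s r = (∑ r ∈ Gr, f g r) / ro (z g s) r₁ := by
  constructor
  · rw [sum_div]
    refine sum_congr rfl fun q hq => ?_
    unfold ft
    rw [(h.roq hq).1]
  · rw [sum_div]
    refine sum_congr rfl fun r hr => ?_
    unfold ft
    rw [(h.ror hr).1]

/-- the weights -/
theorem GC.wts (h : GC g δ i s Gq Gr R R' lq lr F G q₁ r₁) :
    (∑ q ∈ Gq, f g q) * ro (z g i) r₁ / (cofac R R' : ℝ) ≤
        (∑ q ∈ Gq, f g q) * Wt g i r₁ / rgh (z g s) (rcof (z g i) (N g) (kc g q₁) q₁ r₁) ∧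
      (∑ r ∈ Gr, f g r) * ro (z g i) q₁ / (cofac R' R : ℝ) ≤
        (∑ r ∈ Gr, f g r) * Wt g i q₁ / rgh (z g s) (rcof (z g i) (N g) (kc g q₁) r₁ q₁) := by
  obtain ⟨eU, eV⟩ := cofac_Rg_eq h.hV h.zi h.si (h.Vq q₁ h.hq₁) (h.Vr r₁ h.hr₁) h.hc₁
  rw [(h.hGq q₁ h.hq₁).1, (h.hGr r₁ h.hr₁).1] at eU eV
  have hal0 : 0 < rgh (z g s) (rcof (z g i) (N g) (kc g q₁) q₁ r₁) := rgh_pos _ _
  have hbe0 : 0 < rgh (z g s) (rcof (z g i) (N g) (kc g q₁) r₁ q₁) := rgh_pos _ _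
  have eU' : ((cofac R R' : ℕ) : ℝ) =
      M g i r₁ * rgh (z g s) (rcof (z g i) (N g) (kc g q₁) q₁ r₁) := by
    rw [eU]; push_cast; rfl
  have eV' : ((cofac R' R : ℕ) : ℝ) =
      M g i q₁ * rgh (z g s) (rcof (z g i) (N g) (kc g q₁) r₁ q₁) := by
    rw [eV]; push_cast; rfl
  generalize rgh (z g s) (rcof (z g i) (N g) (kc g q₁) q₁ r₁) = al at *
  generalize rgh (z g s) (rcof (z g i) (N g) (kc g q₁) r₁ q₁) = be at *
  have hMr0 : (0 : ℝ) < M g i r₁ := by exact_mod_cast M_pos g i r₁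
  have hMq0 : (0 : ℝ) < M g i q₁ := by exact_mod_cast M_pos g i q₁
  have hal0r : (0 : ℝ) < al := by exact_mod_cast hal0
  have hbe0r : (0 : ℝ) < be := by exact_mod_cast hbe0
  have hw1 : ro (z g i) r₁ / M g i r₁ ≤ Wt g i r₁ := ro_div_le_wdv_self
  have hw1' : ro (z g i) q₁ / M g i q₁ ≤ Wt g i q₁ := ro_div_le_wdv_self
  constructor
  · rw [eU', show (∑ q ∈ Gq, f g q) * ro (z g i) r₁ / ((M g i r₁ : ℝ) * al) =
      (∑ q ∈ Gq, f g q) * (ro (z g i) r₁ / M g i r₁) / al by field_simp]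
    exact div_le_div_of_nonneg_right (mul_le_mul_of_nonneg_left hw1
      (sum_nonneg fun q _ => f_nonneg g q)) hal0r.le
  · rw [eV', show (∑ r ∈ Gr, f g r) * ro (z g i) q₁ / ((M g i q₁ : ℝ) * be) =
      (∑ r ∈ Gr, f g r) * (ro (z g i) q₁ / M g i q₁) / be by field_simp]
    exact div_le_div_of_nonneg_right (mul_le_mul_of_nonneg_left hw1'
      (sum_nonneg fun q _ => f_nonneg g q)) hbe0r.le

theorem GC.cpos (h : GC g δ i s Gq Gr R R' lq lr F G q₁ r₁) :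
    (0 : ℝ) < cofac R R' ∧ (0 : ℝ) < cofac R' R := by
  have hR0 : 0 < R := (h.hGq q₁ h.hq₁).1 ▸ Rg_pos s q₁
  have hR0' : 0 < R' := (h.hGr r₁ h.hr₁).1 ▸ Rg_pos s r₁
  exact ⟨by exact_mod_cast cofac_pos _ hR0, by exact_mod_cast cofac_pos _ hR0'⟩

end

theorem dec_le {t : ℝ} (ht0 : 0 ≤ t) :
    (1 + max 0 (t - 1)) ^ (-(2 : ℝ)) ≤ 4 * (1 + t) ^ (-(2 : ℝ)) := by
  have hL0 : (0 : ℝ) ≤ max 0 (t - 1) := le_max_left _ _
  have h1 : 1 + t ≤ 2 * (1 + max 0 (t - 1)) := by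
    have : t - 1 ≤ max 0 (t - 1) := le_max_right _ _
    linarith
  have h2 : (2 * (1 + max 0 (t - 1))) ^ (-(2 : ℝ)) ≤ (1 + t) ^ (-(2 : ℝ)) :=
    Real.rpow_le_rpow_of_nonpos (by linarith) h1 (by norm_num)
  rw [Real.mul_rpow (by norm_num) (by linarith)] at h2
  have h3 : (2 : ℝ) ^ (-(2 : ℝ)) = 1 / 4 := by
    rw [Real.rpow_neg (by norm_num), show (2 : ℝ) = ((2 : ℕ) : ℝ) by norm_num,
      Real.rpow_natCast]
    norm_num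
  rw [h3] at h2
  linarith

open Classical in
/-- **The group bound.** -/
theorem grpG_of {c₄ K₁ C₁ ε : ℝ} (hg4 : g.K.P.c4 ≤ c₄) (hcm : g.K.P.cm = 1)
    (hK₁ : K₁ ≤ g.K.P.ρ0 ^ (-g.K.P.c0)) (hK₁8 : 8192 ≤ K₁) (hC₁ : 0 ≤ C₁)
    (hzs2 : 2 ≤ zs g) (hJ : JsOK g.K g.Js) (hX : g.Js ≤ g.X) (hV : g.V ⊆ Icc 1 (N g))
    (hin : ∀ K ≥ K₁,
      ∀ (z N : ℕ) (U V Ms L K' : ℝ) (k : ℤ) (d : ℕ) (k' : ℤ) (d' : ℕ) (e₁ e₂ : ℝ)
      (Ω : ℕ → ℕ → Prop) (ψ₁ ψ₂ f h : ℕ → ℝ),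
      2 ≤ z → Real.log z ≤ K ^ (c₄ : ℝ) → 0 < U → 0 < V → 0 < Ms → 0 ≤ L →
      K ^ (1 / 3 : ℝ) ≤ K' → 0 < d → 0 < d' → IsCoprime k (d : ℤ) → IsCoprime k' (d' : ℤ) →
      ((d * d' : ℕ) : ℝ) ≤ K ^ (3 : ℝ) →
      (∀ q, 0 ≤ f q ∧ f q ≤ ψ₁ q) → (∀ r, 0 ≤ h r ∧ h r ≤ ψ₂ r) →
      (∀ q, f q ≠ 0 → K ^ (-(2 / g.K.P.c0)) ≤ Ms * ψ₁ q) → Ms * ∑ q ∈ Icc 1 N, f q ≤ 8 * K →
      (∀ u v, Ω u v → PComp (PZ z) (u * v)) → (∀ u v, Ω u v → (2 : ℝ) ^ L ≤ max (u : ℝ) v) →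
      ((1 + Real.log z) ^ 3 * (1 / (U * V) *
        eng Ω N (fun x => V * ψ₁ x) (fun x => U * ψ₂ x) (fun x => V * f x) (fun x => U * h x)) ≤
        K ^ ε * (1 + L) ^ (-(2 : ℝ)) *
          gmean ((∑ q ∈ Icc 1 N, f q) / U) ((∑ r ∈ Icc 1 N, h r) / V)) ∧
      ((∀ u v, Ω u v → LeakRel K' k d k' d' e₁ e₂ z u v) →
        (1 + Real.log z) ^ 3 * (1 / (U * V) *
        eng Ω N (fun x => V * ψ₁ x) (fun x => U * ψ₂ x) (fun x => V * f x) (fun x => U * h x)) ≤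
        K ^ (-(1 / 400) : ℝ) * (1 + L) ^ (-(2 : ℝ)) *
          gmean ((∑ q ∈ Icc 1 N, f q) / U) ((∑ r ∈ Icc 1 N, h r) / V)))
    (hterm : ∀ δ, Om δ → ∀ i s q r n, i ≤ s → q ∈ V1 g → r ∈ V1 g →
      n ∈ Sh g q r → TAj g i q r n → Dl g q r ≤ z g i →
      ∀ U ⊆ Lks g (z g i) q r n, ∀ U' ⊆ Lks g (z g i) r q (-n),
      f g q * f g r / Dl g q r * Kd g δ q r n ≤ C₁ * (1 + Real.log (z g s)) ^ 3 *
      (NT.Gn (rgh (z g s) (rcof (z g i) (N g) (kc g q) q r)) *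
        NT.Gn (rgh (z g s) (rcof (z g i) (N g) (kc g q) r q))) *
      Real.sqrt (ro (z g i) q * ro (z g i) r) * Real.sqrt (ro (z g s) q * ro (z g s) r) *
      ((∏ p ∈ U, δ q p) * ∏ p ∈ U', δ r p) *
      ((f g q / ro (z g s) q) * (f g r / ro (z g s) r) / Dl g q r))
    {i s : ℕ} (hi : 1 ≤ i) (his : i < s) (hsn : s ≤ nst g) :
    GrpG g (C₁ * Real.exp 1 * 4) ε i s := by
  intro δ hδ Gq Gr R R' lq lr F G dq dr hGq1 hGr1 hGq hGr hdq hdr q₁ hq₁ r₁ hr₁ n₁ hn₁ hL₁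
  have h : GC g δ i s Gq Gr R R' lq lr F G q₁ r₁ :=
    ⟨hJ, hX, hV, hi, his, hsn, hGq1, hGr1, hGq, hGr, hq₁, hr₁, hL₁.1.2.2.1⟩
  have hzs : zs g ≤ z g s := zs_le_z hJ hX s
  have hUq₁ := (hGq q₁ hq₁).2.2.1
  have hSq₁ := (hGq q₁ hq₁).2.2.2
  have hq₁V := h.Vq q₁ hq₁
  have hr₁V := h.Vr r₁ hr₁
  have hc₁ := h.hc₁
  have hsum := h.sum_le hδ hC₁ hdq hdr hterm
  clear hterm
  rw [rcof_swap hV h.zi hq₁V hr₁V hc₁ r₁ q₁]
  obtain ⟨eU, eV⟩ := cofac_Rg_eq hV h.zi h.si hq₁V hr₁V hc₁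
  rw [(hGq q₁ hq₁).1, (hGr r₁ hr₁).1] at eU eV
  have hdenle := lk_den_le3 (F := F) (G := G) (K := KS g i q₁ r₁ F G) eU eV
  have hrel := h.rel rfl
  have hΔ0 : 0 ≤ (∏ p ∈ omS g i s (BB g i q₁ r₁ F G) q₁ r₁, dq p) *
      ∏ p ∈ omS g i s (BB g i q₁ r₁ F G) r₁ q₁, dr p :=
    mul_nonneg (prod_nonneg fun p hp =>
      (hδ q₁ p).1.trans (hdq q₁ h.hq₁ p (mem_omS hV h.zi hq₁V hr₁V hc₁ hp).2.1))
      (prod_nonneg fun p hp => (hδ r₁ p).1.trans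
        (hdr r₁ h.hr₁ p (mem_omS hV h.zi hr₁V hq₁V (Clean.swap hr₁V hc₁) hp).2.1))
  obtain ⟨u1, u2, u3⟩ := Un_facts_K (K := KS g i q₁ r₁ F G) hSq₁ hUq₁ his (le_max_left _ _)
  have r2 := ro_le_ro' (x := z g s) hV h.zi (hGq1 hq₁) (hGr1 hr₁) hc₁
  have r3 : ro (z g i) r₁ ≤ Real.exp (1 / 2) *
      NT.Gn (rgh (z g s) (rcof (z g i) (N g) (kc g q₁) q₁ r₁)) * ro (z g i) q₁ := by
    refine (ro_le_ro (x := z g i) hV h.zi (hGq1 hq₁) (hGr1 hr₁) hc₁).trans ?_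
    refine mul_le_mul_of_nonneg_right ?_ (ro_nonneg _ _)
    exact mul_le_mul_of_nonneg_left (Gn_rgh_le h.si) (Real.exp_pos _).le
  have hGa1 := one_le_Gn (rgh (z g s) (rcof (z g i) (N g) (kc g q₁) q₁ r₁))
  have hGb1 := one_le_Gn (rgh (z g s) (rcof (z g i) (N g) (kc g q₁) r₁ q₁))
  obtain ⟨hx, hy⟩ := h.wts
  obtain ⟨hU0, hV0⟩ := h.cpos
  obtain ⟨hSq, hSr⟩ := h.sums
  have hlev := h.levels rfl
  have hmass := h.mass hcm rfl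
  have hlarge := h.large
  have hKK₁ : K₁ ≤ KS g i q₁ r₁ F G := hK₁.trans u1.le
  have hf1 := ft_ite_le (s := s) hV fun q hq => ⟨h.Vq q hq, (hGq q hq).1⟩
  have hf2 := ft_ite_le (s := s) hV fun r hr => ⟨h.Vr r hr, (hGr r hr).1⟩
  have hs1 := sum_ft (s := s) hV fun q hq => ⟨h.Vq q hq, (hGq q hq).1⟩
  have hs2 := sum_ft (s := s) hV fun r hr => ⟨h.Vr r hr, (hGr r hr).1⟩
  have hsm : ∀ u v, GCΩ g δ i s Gq Gr u v → PComp (PZ (z g s)) (u * v) := by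
    rintro u v ⟨q, hq, r, hr, n, -, -, -, rfl, rfl⟩
    exact inn_smooth hV (h.Vq q hq) (h.Vr r hr)
  have hMs : (0 : ℝ) < M g s q₁ := by exact_mod_cast M_pos g s q₁
  clear hdq hdr hGq hGr
  generalize KS g i q₁ r₁ F G = K at *
  have hK8 : 8192 ≤ K := hK₁8.trans hKK₁
  have hK0 : 0 < K := by linarith
  have hK1 : 1 ≤ K := by linarith
  have hL0 : 0 ≤ max 0 (|hgt lr R' - hgt lq R| - 1) := le_max_left _ _
  have hdec := dec_le (abs_nonneg (hgt lr R' - hgt lq R))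
  have hK16 : K ^ (1 / 3 : ℝ) ≤ K ^ (1 / 2 : ℝ) / 4 := by
    have h1 : (4 : ℝ) ≤ K ^ (1 / 6 : ℝ) := by
      calc (4 : ℝ) = ((4 : ℝ) ^ (6 : ℝ)) ^ (1 / 6 : ℝ) := by
            rw [← Real.rpow_mul (by norm_num)]; norm_num
        _ ≤ K ^ (1 / 6 : ℝ) := Real.rpow_le_rpow (by norm_num) (by norm_num; linarith) (by norm_num)
    have h2 : K ^ (1 / 2 : ℝ) = K ^ (1 / 3 : ℝ) * K ^ (1 / 6 : ℝ) := by
      rw [← Real.rpow_add hK0]; norm_num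
    rw [h2]
    have h3 : 0 < K ^ (1 / 3 : ℝ) := by positivity
    nlinarith
  -- the inner estimate
  have hmain := hin K hKK₁ (z g s) (N g) (cofac R R' : ℝ) (cofac R' R : ℝ) (M g s q₁)
    (max 0 (|hgt lr R' - hgt lq R| - 1)) (K ^ (1 / 2 : ℝ) / 4)
    (((cofac R' R : ℕ) : ℚ) * F).num (((cofac R' R : ℕ) : ℚ) * F).den
    (((cofac R R' : ℕ) : ℚ) * G).num (((cofac R R' : ℕ) : ℚ) * G).den
    ((g.γ - F) * (cofac R' R : ℕ)) ((g.γ - G) * (cofac R R' : ℕ)) (GCΩ g δ i s Gq Gr)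
    (fun x => ψ g (R * x)) (fun y => ψ g (R' * y))
    (fun x => if R * x ∈ Gq then ft g s (R * x) else 0)
    (fun y => if R' * y ∈ Gr then ft g s (R' * y) else 0)
    (hzs2.trans hzs) (u3.trans (Real.rpow_le_rpow_of_exponent_le hK1 hg4)) hU0 hV0
    hMs hL0 hK16 (Rat.den_pos _) (Rat.den_pos _)
    (isCoprime_num_den _) (isCoprime_num_den _) (hdenle (by linarith) le_rfl)
    hf1 hf2 (fun x hx => hlev hK8 x hx) (by rw [hs1]; exact hmass) hsm hlarge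
  clear hin
  rw [hs1, hs2, hSq, hSr] at hmain
  clear hs1 hs2 hf1 hf2 hlev
  generalize 1 / ((cofac R R' : ℝ) * cofac R' R) * eng (GCΩ g δ i s Gq Gr) (N g)
      (fun x => (cofac R' R : ℝ) * ψ g (R * x)) (fun y => (cofac R R' : ℝ) * ψ g (R' * y))
      (fun x => (cofac R' R : ℝ) * (if R * x ∈ Gq then ft g s (R * x) else 0))
      (fun y => (cofac R R' : ℝ) * (if R' * y ∈ Gr then ft g s (R' * y) else 0)) = E at *
  have hκ : (1 + Real.log (z g s)) ^ 3 * E ≤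
      kapG ε K (rsp g i s (BB g i q₁ r₁ F G) q₁ r₁) (rsp g i s (BB g i q₁ r₁ F G) r₁ q₁) *
        (1 + max 0 (|hgt lr R' - hgt lq R| - 1)) ^ (-(2 : ℝ)) *
          gmean ((∑ q ∈ Gq, f g q) / ro (z g s) q₁ / (cofac R R' : ℝ))
            ((∑ r ∈ Gr, f g r) / ro (z g s) r₁ / (cofac R' R : ℝ)) := by
    unfold kapG
    split_ifs with hcs
    · exact hmain.2 (hrel hK1 hcs.1 hcs.2)
    · exact hmain.1
  clear hmain hrel
  have hFq : 0 ≤ ∑ q ∈ Gq, f g q := sum_nonneg fun q _ => f_nonneg g q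
  have hFr : 0 ≤ ∑ r ∈ Gr, f g r := sum_nonneg fun r _ => f_nonneg g r
  have hari := geo_arith (ro_pos (z g s) q₁) (ro_pos (z g s) r₁) (ro_pos (z g i) q₁)
    (ro_pos (z g i) r₁) hU0 hV0 hGa1 hGb1 hFq hFr hx hy r2 r3
  have hκ0 : 0 ≤ kapG ε K (rsp g i s (BB g i q₁ r₁ F G) q₁ r₁)
      (rsp g i s (BB g i q₁ r₁ F G) r₁ q₁) := by
    unfold kapG
    split_ifs <;> positivity
  have hP := gmean_nonneg (div_nonneg (mul_nonneg hFq (Wt_nonneg (g := g) i r₁))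
      (Nat.cast_nonneg (rgh (z g s) (rcof (z g i) (N g) (kc g q₁) q₁ r₁))))
    (div_nonneg (mul_nonneg hFr (Wt_nonneg (g := g) i q₁))
      (Nat.cast_nonneg (rgh (z g s) (rcof (z g i) (N g) (kc g q₁) r₁ q₁))))
  exact hsum.trans (final_geo (x3 := (1 + Real.log (z g s)) ^ 3) (E := E) hC₁ hGa1 hGb1
    (Real.sqrt_nonneg (ro (z g i) q₁ * ro (z g i) r₁))
    (Real.sqrt_nonneg (ro (z g s) q₁ * ro (z g s) r₁)) hκ0
    (Real.rpow_nonneg (by linarith) (-(2 : ℝ))) hΔ0 hκ hari hdec hP)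

/-- **The group bound for all the stages.** -/
theorem grpG (ε : ℝ) (hε : 0 < ε) : Ev (fun K Js => ∃ C ≥ 0, ∀ g : Cfg, g.K = K → g.Js = Js →
    g.Js ≤ g.X → g.V ⊆ Icc 1 (N g) → ∀ i s, 1 ≤ i → i < s → s ≤ nst g → GrpG g C ε i s) := by
  have hin : ∀ c0 : ℝ, 0 < c0 → ∃ c₄ > 0, ∃ K₁ ≥ (8 : ℝ), ∀ K ≥ K₁,
      ∀ (z N : ℕ) (U V Ms L K' : ℝ) (k : ℤ) (d : ℕ) (k' : ℤ) (d' : ℕ) (e₁ e₂ : ℝ)
      (Ω : ℕ → ℕ → Prop) (ψ₁ ψ₂ f h : ℕ → ℝ),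
      2 ≤ z → Real.log z ≤ K ^ (c₄ : ℝ) → 0 < U → 0 < V → 0 < Ms → 0 ≤ L →
      K ^ (1 / 3 : ℝ) ≤ K' → 0 < d → 0 < d' → IsCoprime k (d : ℤ) → IsCoprime k' (d' : ℤ) →
      ((d * d' : ℕ) : ℝ) ≤ K ^ (3 : ℝ) →
      (∀ q, 0 ≤ f q ∧ f q ≤ ψ₁ q) → (∀ r, 0 ≤ h r ∧ h r ≤ ψ₂ r) →
      (∀ q, f q ≠ 0 → K ^ (-(2 / c0)) ≤ Ms * ψ₁ q) → Ms * ∑ q ∈ Icc 1 N, f q ≤ 8 * K →
      (∀ u v, Ω u v → PComp (PZ z) (u * v)) → (∀ u v, Ω u v → (2 : ℝ) ^ L ≤ max (u : ℝ) v) →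
      ((1 + Real.log z) ^ 3 * (1 / (U * V) *
        eng Ω N (fun x => V * ψ₁ x) (fun x => U * ψ₂ x) (fun x => V * f x) (fun x => U * h x)) ≤
        K ^ ε * (1 + L) ^ (-(2 : ℝ)) *
          gmean ((∑ q ∈ Icc 1 N, f q) / U) ((∑ r ∈ Icc 1 N, h r) / V)) ∧
      ((∀ u v, Ω u v → LeakRel K' k d k' d' e₁ e₂ z u v) →
        (1 + Real.log z) ^ 3 * (1 / (U * V) *
        eng Ω N (fun x => V * ψ₁ x) (fun x => U * ψ₂ x) (fun x => V * f x) (fun x => U * h x)) ≤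
        K ^ (-(1 / 400) : ℝ) * (1 + L) ^ (-(2 : ℝ)) *
          gmean ((∑ q ∈ Icc 1 N, f q) / U) ((∑ r ∈ Icc 1 N, h r) / V)) :=
    fun c0 hc0 => inner_geo (2 / c0) ε (by positivity) hε
  choose! c₄ hc₄ K₁ hK₁ hin using hin
  obtain ⟨C₁, hC₁, hterm⟩ := term_leakD
  refine (ev_numOK.and (ev_rho_big (fun c0 => max (K₁ c0) 8192) c₄ hc₄)).mono ?_
  rintro K Js ⟨hN, h4, hρ, hcm⟩
  refine ⟨C₁ * Real.exp 1 * 4, by positivity, ?_⟩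
  rintro g rfl rfl hX hV i s hi his hs
  have hJ : JsOK g.K g.Js := hN.js
  have hzs2 : 2 ≤ zs g := by
    unfold zs
    refine Nat.le_floor ?_
    have h4' : (4 : ℝ) ≤ max 1 g.Js := hJ.1.trans (le_max_right _ _)
    push_cast
    calc (2 : ℝ) ≤ (max 1 g.Js) ^ (1 : ℝ) := by rw [Real.rpow_one]; linarith
      _ ≤ (max 1 g.Js) ^ g.K.C2 := Real.rpow_le_rpow_of_exponent_le (by linarith) g.K.C2_ge
  refine grpG_of h4 hcm (K₁ := max (K₁ g.K.P.c0) 8192) hρ (le_max_right _ _) hC₁.le hzs2 hJ hX hV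
    (fun K' hK' => hin g.K.P.c0 g.K.P.c0_pos K' ((le_max_left _ _).trans hK')) ?_ hi his hs
  intro δ hδ i s q r n
  exact hterm g hN.e1 hJ hX hV δ hδ i s q r n

end Vale.P028.SK
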