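import Vale.Agent.P028.MathlibUsed
import Vale.Agent.P028.H6.Adders
attribute [-instance] ProperSMul.toContinuousSMul IsTopologicalTorsor.toContinuousSMul IdemSemiring.toCanonicallyOrderedAdd IdemSemiring.toMulLeftMono IdemSemiring.toMulRightMono AddQuantale.instAddLeftMono AddQuantale.instAddRightMono Quantale.instMulLeftMono Quantale.instMulRightMono FiniteDimensional.rclike_to_real IsScalarTower.complexToReal FiniteDimensional.complexToReal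

/-!
# The adders with a small power of the omitted part
-/

namespace Vale.P028.SK

open Finset CF RN H669 RK

/-- the weight of the omitted part with the power `τ` -/
noncomputable def wT (h : ℕ → ℝ) (τ : ℝ) (A : ℕ) : ℝ := wA h A * (A : ℝ) ^ τ

theorem wT_nonneg {h : ℕ → ℝ} (hh : ∀ p, 0 ≤ h p) (τ : ℝ) (A : ℕ) : 0 ≤ wT h τ A :=
  mul_nonneg (wA_nonneg hh A) (Real.rpow_nonneg (Nat.cast_nonneg A) _)

theorem wT_one (h : ℕ → ℝ) (τ : ℝ) : wT h τ 1 = 1 := by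
  unfold wT
  rw [wA_one]
  simp

theorem wT_mul (h : ℕ → ℝ) (τ : ℝ) {m n : ℕ} (hmn : m.Coprime n) :
    wT h τ (m * n) = wT h τ m * wT h τ n := by
  unfold wT
  rw [wA_mul h hmn]
  push_cast
  rw [Real.mul_rpow (Nat.cast_nonneg m) (Nat.cast_nonneg n)]
  ring

theorem wT_pow_succ (h : ℕ → ℝ) (τ : ℝ) {p : ℕ} (hp : p.Prime) (n : ℕ) :
    wT h τ (p ^ (n + 1)) = h p * ((p : ℝ)⁻¹ * (p : ℝ) ^ τ) * ((p : ℝ)⁻¹ * (p : ℝ) ^ τ) ^ n := by
  unfold wT
  rw [wA_pow_succ h hp]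
  push_cast
  rw [← Real.rpow_natCast ((p : ℝ)) (n + 1), ← Real.rpow_mul (Nat.cast_nonneg p),
    mul_comm _ τ, Real.rpow_mul (Nat.cast_nonneg p), Real.rpow_natCast, mul_pow, pow_succ]
  ring

theorem hasSum_wT (h : ℕ → ℝ) {τ : ℝ} {p : ℕ} (hp : p.Prime) (h3 : 3 ≤ p)
    (hτ : (p : ℝ) ^ τ ≤ 2) :
    HasSum (fun n : ℕ => wT h τ (p ^ n))
      (1 + h p * ((p : ℝ)⁻¹ * (p : ℝ) ^ τ) * (1 - (p : ℝ)⁻¹ * (p : ℝ) ^ τ)⁻¹) := by
  have hp1 : (3 : ℝ) ≤ p := by exact_mod_cast h3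
  set y : ℝ := (p : ℝ)⁻¹ * (p : ℝ) ^ τ with hy
  have hy0 : 0 ≤ y := by positivity
  have hy1 : y < 1 := by
    have h4 : (p : ℝ)⁻¹ ≤ 1 / 3 := by
      rw [inv_le_comm₀ (by linarith) (by norm_num)]
      linarith
    calc y ≤ 1 / 3 * 2 := mul_le_mul h4 hτ (by positivity) (by norm_num)
      _ < 1 := by norm_num
  have hg : HasSum (fun n : ℕ => y ^ n) (1 - y)⁻¹ := hasSum_geometric_of_lt_one hy0 hy1
  have h1 := hg.mul_left (h p * y)
  have h2 : HasSum (fun n : ℕ => wT h τ (p ^ (n + 1))) (h p * y * (1 - y)⁻¹) :=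
    h1.congr_fun fun n => wT_pow_succ h τ hp n
  have h3 := HasSum.zero_add (f := fun n : ℕ => wT h τ (p ^ n)) h2
  rw [pow_zero, wT_one] at h3
  exact h3

/-- the sum over the numbers composed of primes in `U` -/
theorem sum_wT_le {h : ℕ → ℝ} (hh : ∀ p, 0 ≤ h p) {τ : ℝ} {U T : Finset ℕ}
    (hU : ∀ p ∈ U, p.Prime ∧ 3 ≤ p ∧ (p : ℝ) ^ τ ≤ 2)
    (hT : ∀ A ∈ T, A ≠ 0 ∧ A.primeFactors ⊆ U) :
    ∑ A ∈ T, wT h τ A ≤
      ∏ p ∈ U, (1 + h p * ((p : ℝ)⁻¹ * (p : ℝ) ^ τ) * (1 - (p : ℝ)⁻¹ * (p : ℝ) ^ τ)⁻¹) := by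
  classical
  -- only the primes in `U` matter
  set h' : ℕ → ℝ := fun p => if p ∈ U then h p else 0 with hh'
  have hnn : ∀ p, 0 ≤ h' p := by
    intro p
    rw [hh']
    dsimp only
    split_ifs
    · exact hh p
    · exact le_rfl
  have e : ∀ A ∈ T, wT h τ A = wT h' τ A := by
    intro A hA
    unfold wT wA
    congr 2
    refine prod_congr rfl fun p hp => ?_
    rw [hh']
    dsimp only
    rw [if_pos ((hT A hA).2 hp)]
  rw [sum_congr rfl e]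
  have hsum : ∀ {p : ℕ}, p.Prime → HasSum (fun n : ℕ => wT h' τ (p ^ n))
      (if p ∈ U then 1 + h' p * ((p : ℝ)⁻¹ * (p : ℝ) ^ τ) * (1 - (p : ℝ)⁻¹ * (p : ℝ) ^ τ)⁻¹
        else 1) := by
    intro p hp
    split_ifs with hpU
    · exact hasSum_wT h' hp (hU p hpU).2.1 (hU p hpU).2.2
    · have h0 : h' p = 0 := by
        rw [hh']
        dsimp only
        rw [if_neg hpU]
      have h2 : HasSum (fun n : ℕ => wT h' τ (p ^ (n + 1))) 0 := by
        refine hasSum_zero.congr_fun fun n => ?_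
        rw [wT_pow_succ h' τ hp, h0, zero_mul, zero_mul]
      have h3 := HasSum.zero_add (f := fun n : ℕ => wT h' τ (p ^ n)) h2
      rw [pow_zero, wT_one, add_zero] at h3
      exact h3
  obtain ⟨-, h1⟩ := EulerProduct.summable_and_hasSum_factoredNumbers_prod_filter_prime_tsum
    (f := wT h' τ) (wT_one h' τ) (fun {m n} hmn => wT_mul h' τ hmn)
    (fun {p} hp => by
      have h2 := (hsum hp).summable
      refine h2.congr fun n => ?_
      rw [Real.norm_of_nonneg (wT_nonneg hnn τ _)]) U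
  have h2 : ∏ p ∈ U.filter Nat.Prime, ∑' n : ℕ, wT h' τ (p ^ n) =
      ∏ p ∈ U, (1 + h p * ((p : ℝ)⁻¹ * (p : ℝ) ^ τ) * (1 - (p : ℝ)⁻¹ * (p : ℝ) ^ τ)⁻¹) := by
    rw [filter_true_of_mem fun p hp => (hU p hp).1]
    refine prod_congr rfl fun p hp => ?_
    rw [(hsum (hU p hp).1).tsum_eq, if_pos hp]
    rw [hh']
    dsimp only
    rw [if_pos hp]
  rw [h2] at h1
  have hmem : ∀ A ∈ T, A ∈ Nat.factoredNumbers U := by
    intro A hA
    obtain ⟨h3, h4⟩ := hT A hA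
    exact Nat.mem_factoredNumbers_of_primeFactors_subset h3 h4
  set T' : Finset (Nat.factoredNumbers U) := T.attach.image (fun A => ⟨A.1, hmem A.1 A.2⟩) with hT'
  have h3 := sum_le_hasSum T' (fun A _ => wT_nonneg hnn τ A.1) h1
  refine le_trans (le_of_eq ?_) h3
  rw [hT', sum_image, sum_attach T (fun A => wT h' τ A)]
  intro a _ b _ hab
  exact Subtype.ext (by simpa using congrArg Subtype.val hab)

/-- the same with an exponential bound -/
theorem sum_wT_exp {h : ℕ → ℝ} (hh : ∀ p, 0 ≤ h p) {τ : ℝ} {d : ℕ → ℝ} {U T : Finset ℕ}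
    (hd : ∀ p ∈ U, p.Prime ∧ 7 ≤ p ∧ (p : ℝ) ^ τ ≤ 2 ∧ 0 ≤ d p ∧
      h p = (1 - 1 / (p : ℝ))⁻¹ * d p)
    (hT : ∀ A ∈ T, A ≠ 0 ∧ A.primeFactors ⊆ U) {x : ℝ} (hx : ∑ p ∈ U, d p / p ≤ x) :
    ∑ A ∈ T, wT h τ A ≤ Real.exp (4 * x) := by
  refine (sum_wT_le hh (fun p hp => ⟨(hd p hp).1, by have := (hd p hp).2.1; omega,
    (hd p hp).2.2.1⟩) hT).trans ?_
  have h1 : ∏ p ∈ U, (1 + h p * ((p : ℝ)⁻¹ * (p : ℝ) ^ τ) *
      (1 - (p : ℝ)⁻¹ * (p : ℝ) ^ τ)⁻¹) ≤ ∏ p ∈ U, Real.exp (4 * (d p / p)) := by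
    refine prod_le_prod (fun p hp => ?_) fun p hp => ?_
    · obtain ⟨h2, h7, h3, h4, h5⟩ := hd p hp
      have hp7 : (7 : ℝ) ≤ p := by exact_mod_cast h7
      have h4 : (p : ℝ)⁻¹ ≤ 1 / 7 := by
        rw [inv_le_comm₀ (by linarith) (by norm_num)]
        linarith
      have h5 : (p : ℝ)⁻¹ * (p : ℝ) ^ τ ≤ 1 / 7 * 2 :=
        mul_le_mul h4 h3 (by positivity) (by norm_num)
      have h6 : 0 ≤ (1 - (p : ℝ)⁻¹ * (p : ℝ) ^ τ)⁻¹ := inv_nonneg.2 (by linarith)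
      have h7 : 0 ≤ h p * ((p : ℝ)⁻¹ * (p : ℝ) ^ τ) * (1 - (p : ℝ)⁻¹ * (p : ℝ) ^ τ)⁻¹ :=
        mul_nonneg (mul_nonneg (hh p) (by positivity)) h6
      linarith
    · obtain ⟨h2, h7, h3, h4, h5⟩ := hd p hp
      have hp7 : (7 : ℝ) ≤ p := by exact_mod_cast h7
      have hp0 : (0 : ℝ) < p := by linarith
      set u : ℝ := (p : ℝ)⁻¹ with hu
      have hu0 : 0 < u := inv_pos.2 hp0
      have hu1 : u ≤ 1 / 7 := by
        rw [hu, inv_le_comm₀ hp0 (by norm_num)]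
        linarith
      set y : ℝ := u * (p : ℝ) ^ τ with hy
      have hy0 : 0 ≤ y := by positivity
      have hy2 : y ≤ 2 * u := by
        rw [hy, mul_comm]
        exact mul_le_mul_of_nonneg_right h3 hu0.le
      have hy3 : y ≤ 2 / 7 := by linarith
      have k1 : (1 - 1 / (p : ℝ))⁻¹ ≤ 7 / 6 := by
        rw [one_div, ← hu, inv_le_comm₀ (by linarith) (by norm_num)]
        linarith
      have k2 : (1 - y)⁻¹ ≤ 7 / 5 := by
        rw [inv_le_comm₀ (by linarith) (by norm_num)]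
        linarith
      have k3 : 0 ≤ (1 - y)⁻¹ := inv_nonneg.2 (by linarith)
      have e : h p * y * (1 - y)⁻¹ ≤ 4 * (d p / p) := by
        rw [h5]
        calc (1 - 1 / (p : ℝ))⁻¹ * d p * y * (1 - y)⁻¹
            ≤ 7 / 6 * d p * (2 * u) * (7 / 5) := by
              refine mul_le_mul (mul_le_mul (mul_le_mul_of_nonneg_right k1 h4) hy2 hy0
                (by positivity)) k2 k3 (by positivity)
          _ ≤ 4 * (d p * u) := by
              have := mul_nonneg h4 hu0.le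
              nlinarith
          _ = 4 * (d p / p) := by rw [div_eq_mul_inv]
      have := Real.add_one_le_exp (4 * (d p / p))
      linarith
  refine h1.trans ?_
  rw [← Real.exp_sum, Real.exp_le_exp, ← mul_sum]
  linarith

variable {g : Cfg}

/-- **The adders of one phase** with a small power of the omitted part. The ends of the intervals
may depend on the omitted part. -/
theorem adders_tw {c1 c : ℝ} (h1 : 0 < c1) (hc : 0 ≤ c) (h7 : 7 ≤ zs g)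
    (hJ : JsOK g.K g.Js) (hX : g.Js ≤ g.X) {τ : ℝ} {i q : ℕ} {F : ℚ} {T : Finset ℕ}
    (hT : ∀ A ∈ T, A ≠ 0 ∧ ∃ s, i < s ∧ s ≤ nst g + 1 ∧ Un g i s q F ∧ ∀ p ∈ A.primeFactors,
      p ≤ N g ∧ p ≤ z g i ∧ z g s < p ∧ dd g c1 c q p ≠ 0 ∧ (p : ℝ) ^ τ ≤ 2) :
    ∑ A ∈ T, wT (fun p => (1 - 1 / (p : ℝ))⁻¹ * dd g c1 c q p) τ A ≤
      Real.exp (2 * (c * c1)) := by
  classical
  rcases T.eq_empty_or_nonempty with hTe | hTe
  · rw [hTe, sum_empty]
    exact (Real.exp_pos _).le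
  set U : Finset ℕ := T.biUnion (fun A => A.primeFactors) with hUdef
  have hex : ∃ a ∈ NwP g q, ∀ p ∈ U, a ≤ N g - p ∧ N g - p < nxw g q a := by
    rcases U.eq_empty_or_nonempty with h0 | ⟨p₀, hp₀⟩
    · obtain ⟨A, hA⟩ := hTe
      obtain ⟨-, s, h2, h3, h4, -⟩ := hT A hA
      obtain ⟨a, ha, -, -⟩ := phase_of_Un h2 h3 h4
      exact ⟨a, ha, fun p hp => absurd hp (by rw [h0]; exact notMem_empty p)⟩
    · obtain ⟨A₀, hA₀, hpA₀⟩ := mem_biUnion.1 hp₀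
      obtain ⟨-, s₀, h2, h3, h4, h5⟩ := hT A₀ hA₀
      obtain ⟨a, ha, a1, a2⟩ := phase_of_Un h2 h3 h4
      obtain ⟨b1, b2, b3, b4, -⟩ := h5 p₀ hpA₀
      refine ⟨a, ha, fun p hp => ?_⟩
      obtain ⟨A, hA, hpA⟩ := mem_biUnion.1 hp
      obtain ⟨-, s, k2, k3, k4, k5⟩ := hT A hA
      obtain ⟨a', ha', a1', a2'⟩ := phase_of_Un k2 k3 k4
      obtain ⟨d1, d2, d3, d4, -⟩ := k5 p hpA
      have e : a' = a := phase_unique ha' ha (j := N g - z g i) a1' (by omega) a1 (by omega)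
      rw [← e]
      exact place_of_Un a1' a2' d3 d2 d1
  obtain ⟨a, ha, hph⟩ := hex
  have hU : ∀ p ∈ U, p.Prime ∧ p ≤ N g ∧ a ≤ N g - p ∧ N g - p < nxw g q a ∧
      dd g c1 c q p ≠ 0 ∧ 7 ≤ p ∧ (p : ℝ) ^ τ ≤ 2 := by
    intro p hp
    obtain ⟨A, hA, hpA⟩ := mem_biUnion.1 hp
    obtain ⟨-, s, k2, k3, k4, k5⟩ := hT A hA
    obtain ⟨d1, d2, d3, d4, d5⟩ := k5 p hpA
    have h9 := zs_le_z hJ hX s
    exact ⟨Nat.prime_of_mem_primeFactors hpA, d1, (hph p hp).1, (hph p hp).2, d4, by omega, d5⟩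
  have hx := sum_dd_phase h1 hc ha (U := U) fun p hp =>
    ⟨(hU p hp).2.1, (hU p hp).1.pos, (hU p hp).2.2.1, (hU p hp).2.2.2.1, (hU p hp).2.2.2.2.1⟩
  -- the weights outside the primes are irrelevant
  set h : ℕ → ℝ := fun p => if p.Prime then (1 - 1 / (p : ℝ))⁻¹ * dd g c1 c q p else 0 with hh
  have hnn : ∀ p, 0 ≤ h p := by
    intro p
    rw [hh]
    dsimp only
    split_ifs with hp
    · exact mul_nonneg (zero_le_one.trans (one_le_inv_factor hp)) (dd_nonneg h1.le hc q p)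
    · exact le_rfl
  have e : ∀ A ∈ T, wT (fun p => (1 - 1 / (p : ℝ))⁻¹ * dd g c1 c q p) τ A = wT h τ A := by
    intro A _
    unfold wT wA
    congr 2
    refine prod_congr rfl fun p hp => ?_
    rw [hh]
    dsimp only
    rw [if_pos (Nat.prime_of_mem_primeFactors hp)]
  rw [sum_congr rfl e]
  have h2 := sum_wT_exp (T := T) hnn (τ := τ) (d := fun p => dd g c1 c q p) (U := U)
    (fun p hp => ⟨(hU p hp).1, (hU p hp).2.2.2.2.2.1, (hU p hp).2.2.2.2.2.2,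
      dd_nonneg h1.le hc q p, by rw [hh]; dsimp only; rw [if_pos (hU p hp).1]⟩)
    (fun A hA => ⟨(hT A hA).1, fun p hp => mem_biUnion.2 ⟨A, hA, hp⟩⟩) hx
  refine h2.trans (le_of_eq ?_)
  congr 1
  ring

end Vale.P028.SK
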