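import Mathlib

/-!
# Exact correlation identity for coprime dilates (worlds recursion, P028)

`Pm m f` is the average of `f` over the fibres of `x ↦ m x`.  For nice 1-periodic `f, g` and coprime
`m, m'` one has `∫ f(m' x) g(m x) = ∫ Pm m f * Pm m' g`.
-/

namespace Vale.P028.R764

open MeasureTheory intervalIntegral Finset

/-- bounded measurable 1-periodic -/
structure Nice (f : ℝ → ℝ) : Prop where
  per : Function.Periodic f 1
  meas : Measurable f
  bdd : ∃ C : ℝ, ∀ x, |f x| ≤ C

/-- fibre average over `x ↦ m x` -/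
noncomputable def Pm (m : ℕ) (f : ℝ → ℝ) (y : ℝ) : ℝ :=
  (1 / (m : ℝ)) * ∑ j ∈ range m, f ((y + j) / m)

theorem periodic_nat {f : ℝ → ℝ} (hf : Function.Periodic f 1) (n : ℕ) (x : ℝ) :
    f (x + n) = f x := by
  have := hf.nat_mul n
  simpa using this x

namespace Nice

variable {f g : ℝ → ℝ}

theorem ii (hf : Nice f) (a b : ℝ) : IntervalIntegrable f volume a b := by
  obtain ⟨C, hC⟩ := hf.bdd
  rw [intervalIntegrable_iff]
  refine Measure.integrableOn_of_bounded (M := C) ?_ hf.meas.aestronglyMeasurable ?_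
  · exact measure_Ioc_lt_top.ne
  · exact Filter.Eventually.of_forall fun x => by simpa using hC x

theorem const (c : ℝ) : Nice fun _ => c := ⟨fun _ => rfl, measurable_const, |c|, fun _ => le_rfl⟩

theorem mul (hf : Nice f) (hg : Nice g) : Nice fun x => f x * g x := by
  obtain ⟨C, hC⟩ := hf.bdd
  obtain ⟨D, hD⟩ := hg.bdd
  refine ⟨fun x => by simp only [hf.per x, hg.per x], hf.meas.mul hg.meas, C * D, fun x => ?_⟩
  rw [abs_mul]
  exact mul_le_mul (hC x) (hD x) (abs_nonneg _) ((abs_nonneg _).trans (hC x))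

theorem add (hf : Nice f) (hg : Nice g) : Nice fun x => f x + g x := by
  obtain ⟨C, hC⟩ := hf.bdd
  obtain ⟨D, hD⟩ := hg.bdd
  refine ⟨fun x => by simp only [hf.per x, hg.per x], hf.meas.add hg.meas, C + D, fun x => ?_⟩
  exact (abs_add_le _ _).trans (add_le_add (hC x) (hD x))

theorem sum {ι : Type*} (s : Finset ι) {F : ι → ℝ → ℝ} (h : ∀ i ∈ s, Nice (F i)) :
    Nice fun x => ∑ i ∈ s, F i x := by
  classical
  induction s using Finset.induction_on with
  | empty => simpa using Nice.const 0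
  | insert a s ha ih =>
    have h1 := (h a (mem_insert_self a s)).add (ih fun i hi => h i (mem_insert_of_mem hi))
    simpa only [sum_insert ha] using h1

theorem smul (c : ℝ) (hf : Nice f) : Nice fun x => c * f x := (Nice.const c).mul hf

theorem dilate (hf : Nice f) (n : ℕ) : Nice fun x => f (n * x) := by
  obtain ⟨C, hC⟩ := hf.bdd
  refine ⟨fun x => ?_, hf.meas.comp (measurable_const.mul measurable_id), C, fun x => hC _⟩
  have : (n : ℝ) * (x + 1) = n * x + n := by ring
  rw [this]
  exact periodic_nat hf.per n _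

theorem shift (hf : Nice f) (c : ℝ) : Nice fun x => f (x + c) := by
  obtain ⟨C, hC⟩ := hf.bdd
  refine ⟨fun x => ?_, hf.meas.comp (measurable_id.add_const c), C, fun x => hC _⟩
  have : x + 1 + c = x + c + 1 := by ring
  rw [this, hf.per]

end Nice

theorem sum_range_periodic {m : ℕ} (g : ℕ → ℝ) (hg : ∀ j, g (j + m) = g j) :
    ∑ j ∈ range m, g (j + 1) = ∑ j ∈ range m, g j := by
  rcases Nat.eq_zero_or_pos m with rfl | hm
  · simp
  obtain ⟨k, rfl⟩ : ∃ k, m = k + 1 := ⟨m - 1, by omega⟩
  rw [sum_range_succ, sum_range_succ' (fun j => g j)]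
  have := hg 0
  rw [zero_add] at this
  rw [this]

theorem Pm_periodic {m : ℕ} (hm : 0 < m) {f : ℝ → ℝ} (hf : Function.Periodic f 1) :
    Function.Periodic (Pm m f) 1 := by
  intro y
  unfold Pm
  congr 1
  have hmR : (m : ℝ) ≠ 0 := by exact_mod_cast hm.ne'
  have h := sum_range_periodic (m := m) (fun j => f ((y + j) / m)) (fun j => by
    have : (y + ((j + m : ℕ) : ℝ)) / m = (y + j) / m + 1 := by
      push_cast; field_simp; ring
    simp only [this, hf _])
  rw [← h]
  refine sum_congr rfl fun j _ => ?_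
  congr 2
  push_cast; ring

theorem Nice.Pm {m : ℕ} (hm : 0 < m) {f : ℝ → ℝ} (hf : Nice f) : Nice (R764.Pm m f) := by
  obtain ⟨C, hC⟩ := hf.bdd
  have hmR : (0 : ℝ) < m := by exact_mod_cast hm
  refine ⟨Pm_periodic hm hf.per, ?_, C, fun y => ?_⟩
  · unfold R764.Pm
    refine measurable_const.mul (Finset.measurable_sum _ fun j _ => ?_)
    exact hf.meas.comp ((measurable_id.add_const _).div_const _)
  · unfold R764.Pm
    rw [abs_mul, abs_of_pos (by positivity : (0 : ℝ) < 1 / m)]
    have h1 : |∑ j ∈ range m, f ((y + j) / m)| ≤ m * C := by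
      refine (abs_sum_le_sum_abs _ _).trans ((sum_le_sum fun j _ => hC _).trans ?_)
      simp
    calc 1 / (m : ℝ) * |∑ j ∈ range m, f ((y + j) / m)| ≤ 1 / (m : ℝ) * (m * C) := by gcongr
      _ = C := by field_simp

/-- `∫₀¹ h(n x) = ∫₀¹ h`. -/
theorem integral_dilate {h : ℝ → ℝ} (hh : Nice h) {n : ℕ} (hn : 0 < n) :
    ∫ x in (0 : ℝ)..1, h (n * x) = ∫ x in (0 : ℝ)..1, h x := by
  have hnR : (n : ℝ) ≠ 0 := by exact_mod_cast hn.ne'
  rw [intervalIntegral.integral_comp_mul_left (fun x => h x) hnR]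
  have h2 := hh.per.intervalIntegral_add_zsmul_eq (n : ℤ) 0 hh.ii
  simp only [mul_zero, mul_one, zero_add, smul_eq_mul, zsmul_eq_mul, Int.cast_natCast] at h2 ⊢
  rw [h2]
  field_simp

/-- translation invariance -/
theorem integral_shift {h : ℝ → ℝ} (hh : Nice h) (c : ℝ) :
    ∫ x in (0 : ℝ)..1, h (x + c) = ∫ x in (0 : ℝ)..1, h x := by
  rw [intervalIntegral.integral_comp_add_right (fun x => h x)]
  have := hh.per.intervalIntegral_add_eq 0 c
  rw [zero_add] at this
  rw [zero_add, add_comm 1 c]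
  exact this.symm

/-- CRT double sum -/
theorem sum_crt {m m' : ℕ} (hm : 0 < m) (hm' : 0 < m') (hc : m.Coprime m') (F G : ℕ → ℝ)
    (hF : ∀ j, F (j + m) = F j) (hG : ∀ j, G (j + m') = G j) :
    ∑ i ∈ range (m * m'), F i * G i = (∑ j ∈ range m, F j) * ∑ k ∈ range m', G k := by
  have hFm : ∀ j, F (j % m) = F j := fun j => by
    have : ∀ t j, F (j + m * t) = F j := by
      intro t; induction t with
      | zero => intro j; simp
      | succ t ih => intro j; rw [Nat.mul_succ, ← Nat.add_assoc, hF, ih]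
    conv_rhs => rw [← Nat.mod_add_div j m]
    rw [this]
  have hGm : ∀ j, G (j % m') = G j := fun j => by
    have : ∀ t j, G (j + m' * t) = G j := by
      intro t; induction t with
      | zero => intro j; simp
      | succ t ih => intro j; rw [Nat.mul_succ, ← Nat.add_assoc, hG, ih]
    conv_rhs => rw [← Nat.mod_add_div j m']
    rw [this]
  rw [sum_mul_sum, ← sum_product']
  refine sum_nbij' (fun i => (i % m, i % m')) (fun x => (Nat.chineseRemainder hc x.1 x.2 : ℕ)) ?_ ?_ ?_ ?_ ?_
  · intro i _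
    simp only [mem_product, mem_range]
    exact ⟨Nat.mod_lt _ hm, Nat.mod_lt _ hm'⟩
  · intro x _
    simp only [mem_range]
    exact Nat.chineseRemainder_lt_mul hc _ _ hm.ne' hm'.ne'
  · intro i hi
    simp only [mem_range] at hi
    have h1 := (Nat.chineseRemainder hc (i % m) (i % m')).2
    have h2 : (Nat.chineseRemainder hc (i % m) (i % m') : ℕ) ≡ i [MOD m * m'] := by
      rw [← Nat.modEq_and_modEq_iff_modEq_mul hc]
      exact ⟨h1.1.trans (Nat.mod_modEq _ _), h1.2.trans (Nat.mod_modEq _ _)⟩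
    exact Nat.ModEq.eq_of_lt_of_lt h2 (Nat.chineseRemainder_lt_mul hc _ _ hm.ne' hm'.ne') hi
  · intro x hx
    simp only [mem_product, mem_range] at hx
    have h1 := (Nat.chineseRemainder hc x.1 x.2).2
    refine Prod.ext ?_ ?_
    · have : (Nat.chineseRemainder hc x.1 x.2 : ℕ) % m = x.1 % m := h1.1
      simp only [this, Nat.mod_eq_of_lt hx.1]
    · have : (Nat.chineseRemainder hc x.1 x.2 : ℕ) % m' = x.2 % m' := h1.2
      simp only [this, Nat.mod_eq_of_lt hx.2]
  · intro i _
    simp only [hFm, hGm]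

/-- **L1**: exact correlation identity for coprime dilates. -/
theorem corr_coprime {m m' : ℕ} (hm : 0 < m) (hm' : 0 < m') (hc : m.Coprime m') {f g : ℝ → ℝ}
    (hf : Nice f) (hg : Nice g) :
    ∫ x in (0 : ℝ)..1, f (m' * x) * g (m * x) = ∫ x in (0 : ℝ)..1, Pm m f x * Pm m' g x := by
  have hmR : (m : ℝ) ≠ 0 := by exact_mod_cast hm.ne'
  have hmR' : (m' : ℝ) ≠ 0 := by exact_mod_cast hm'.ne'
  have hN : 0 < m * m' := Nat.mul_pos hm hm'
  have hfd : Nice fun x => f (m' * x) * g (m * x) := (hf.dilate m').mul (hg.dilate m)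
  -- average over translations by `i / (m m')`
  have h1 : ∀ i : ℕ, ∫ x in (0 : ℝ)..1, f (m' * x + i / m) * g (m * x + i / m') =
      ∫ x in (0 : ℝ)..1, f (m' * x) * g (m * x) := by
    intro i
    rw [← integral_shift hfd ((i : ℝ) / (m * m'))]
    refine intervalIntegral.integral_congr fun x _ => ?_
    have e1 : (m' : ℝ) * x + i / m = m' * (x + i / (m * m')) := by field_simp
    have e2 : (m : ℝ) * x + i / m' = m * (x + i / (m * m')) := by field_simp
    rw [e1, e2]
  have h2 : (m * m' : ℝ) * ∫ x in (0 : ℝ)..1, f (m' * x) * g (m * x) =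
      ∫ x in (0 : ℝ)..1, ∑ i ∈ range (m * m'), f (m' * x + i / m) * g (m * x + i / m') := by
    rw [intervalIntegral.integral_finsetSum]
    · rw [sum_congr rfl fun i _ => h1 i]
      simp
    · intro i _
      have := (((hf.shift ((i : ℝ) / m)).dilate m').mul ((hg.shift ((i : ℝ) / m')).dilate m)).ii 0 1
      exact this
  have h3 : ∀ x : ℝ, ∑ i ∈ range (m * m'), f (m' * x + i / m) * g (m * x + i / m') =
      (m * m' : ℝ) * (Pm m f ((m * m' : ℕ) * x) * Pm m' g ((m * m' : ℕ) * x)) := by
    intro x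
    rw [sum_crt hm hm' hc (fun i => f (m' * x + i / m)) (fun i => g (m * x + i / m'))]
    · unfold Pm
      have e1 : ∀ j : ℕ, (((m * m' : ℕ) : ℝ) * x + j) / m = m' * x + j / m := fun j => by
        push_cast; field_simp
      have e2 : ∀ j : ℕ, (((m * m' : ℕ) : ℝ) * x + j) / m' = m * x + j / m' := fun j => by
        push_cast; field_simp
      simp only [e1, e2]
      field_simp
    · intro j
      have : (m' : ℝ) * x + ((j + m : ℕ) : ℝ) / m = m' * x + j / m + 1 := by
        push_cast; field_simp; ring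
      simp only [this, hf.per _]
    · intro j
      have : (m : ℝ) * x + ((j + m' : ℕ) : ℝ) / m' = m * x + j / m' + 1 := by
        push_cast; field_simp; ring
      simp only [this, hg.per _]
  have h4 : ∫ x in (0 : ℝ)..1, ∑ i ∈ range (m * m'), f (m' * x + i / m) * g (m * x + i / m') =
      (m * m' : ℝ) * ∫ x in (0 : ℝ)..1, Pm m f x * Pm m' g x := by
    rw [intervalIntegral.integral_congr (g := fun x => (m * m' : ℝ) *
      (Pm m f ((m * m' : ℕ) * x) * Pm m' g ((m * m' : ℕ) * x))) fun x _ => h3 x,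
      intervalIntegral.integral_const_mul]
    congr 1
    exact integral_dilate ((hf.Pm hm).mul (hg.Pm hm')) hN
  have h5 : (m * m' : ℝ) ≠ 0 := mul_ne_zero hmR hmR'
  exact mul_left_cancel₀ h5 (h2.trans h4)

end Vale.P028.R764
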